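import Crest.Agent.Lib.BoxFlow.QQ

set_option autoImplicit false

/-!
Computable families of real numbers, and functions of one real variable all of whose derivatives
are uniformly computable at rational points and computably bounded.
-/

namespace Crest.Agent.Lib.BoxFlow

open scoped ContDiff

section CR

variable {D : Type*} [Primcodable D]

/-- A family of real numbers that can be uniformly approximated. -/
def CR (F : D → ℝ) : Prop :=
  ∃ E : D → ℕ → QQ, Computable₂ E ∧ ∀ d n, |F d - (val (E d n) : ℝ)| ≤ 1 / ((n : ℝ) + 1)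

theorem CR.congr {F G : D → ℝ} (hF : CR F) (h : ∀ d, F d = G d) : CR G := by
  have : F = G := funext h
  rwa [← this]

theorem CR.of_qq {f : D → QQ} (hf : Computable f) : CR (fun d => (val (f d) : ℝ)) := by
  refine ⟨fun d _ => f d, (hf.comp Computable.fst).to₂, fun d n => ?_⟩
  simp only [sub_self, abs_zero]
  positivity

theorem CR.const (q : ℚ) : CR (fun _ : D => (q : ℝ)) := by
  have := CR.of_qq (D := D) (f := fun _ => ofRat q) (Computable.const _)
  refine this.congr fun d => ?_
  rw [val_ofRat]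

theorem CR.comp {D' : Type*} [Primcodable D'] {F : D → ℝ} (hF : CR F) {g : D' → D}
    (hg : Computable g) : CR (fun d => F (g d)) := by
  obtain ⟨E, hE, h⟩ := hF
  refine ⟨fun d n => E (g d) n, ?_, fun d n => h _ _⟩
  exact hE.comp (hg.comp Computable.fst) Computable.snd

theorem CR.add {F G : D → ℝ} (hF : CR F) (hG : CR G) : CR (fun d => F d + G d) := by
  obtain ⟨E₁, hE₁, h₁⟩ := hF
  obtain ⟨E₂, hE₂, h₂⟩ := hG
  refine ⟨fun d n => qadd (E₁ d (2 * n + 1)) (E₂ d (2 * n + 1)), ?_, fun d n => ?_⟩
  · have hk : Computable fun p : D × ℕ => 2 * p.2 + 1 :=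
      (prim_succ (prim_mul (Primrec.const 2) Primrec.snd)).to_comp
    have h1 : Computable fun p : D × ℕ => E₁ p.1 (2 * p.2 + 1) := hE₁.comp Computable.fst hk
    have h2 : Computable fun p : D × ℕ => E₂ p.1 (2 * p.2 + 1) := hE₂.comp Computable.fst hk
    exact (prim_qadd Primrec.fst Primrec.snd).to_comp.comp (h1.pair h2)
  · have a := h₁ d (2 * n + 1)
    have b := h₂ d (2 * n + 1)
    rw [abs_le] at a b ⊢
    have e : (1 : ℝ) / (((2 * n + 1 : ℕ) : ℝ) + 1) = (1 / ((n : ℝ) + 1)) / 2 := by
      push_cast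
      field_simp
      ring
    rw [e] at a b
    simp only [val_qadd]
    push_cast
    constructor <;> linarith [a.1, a.2, b.1, b.2]

theorem CR.neg {F : D → ℝ} (hF : CR F) : CR (fun d => - F d) := by
  obtain ⟨E, hE, h⟩ := hF
  refine ⟨fun d n => qneg (E d n), ?_, fun d n => ?_⟩
  · exact (prim_qneg Primrec.id).to_comp.comp hE
  · have := h d n
    simp only [val_qneg]
    push_cast
    rw [show - F d - -(val (E d n) : ℝ) = -(F d - (val (E d n) : ℝ)) by ring, abs_neg]
    exact this

theorem CR.sub {F G : D → ℝ} (hF : CR F) (hG : CR G) : CR (fun d => F d - G d) :=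
  (hF.add hG.neg).congr fun d => by ring

theorem mul_estimate (A B a₀ b₀ a b : ℝ) (c₁ c₂ M n : ℕ) (hM : M = c₁ + c₂ + 3)
    (a0 : |A - a₀| ≤ 1) (b0 : |B - b₀| ≤ 1)
    (e₁ : |A - a| ≤ 1 / (((M * (n + 1) : ℕ) : ℝ) + 1)) (e₂ : |B - b| ≤ 1 / (((M * (n + 1) : ℕ) : ℝ) + 1))
    (c1 : |a₀| ≤ c₁) (c2 : |b₀| ≤ c₂) :
    |A * B - a * b| ≤ 1 / ((n : ℝ) + 1) := by
  have A1 : |A| ≤ c₁ + 1 := by
    have := abs_sub_abs_le_abs_sub A a₀
    linarith
  have B1 : |B| ≤ c₂ + 1 := by
    have := abs_sub_abs_le_abs_sub B b₀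
    linarith
  have Mpos : (0 : ℝ) < (M : ℝ) := by
    have : 0 < M := by omega
    exact_mod_cast this
  have Mval : (M : ℝ) = (c₁ : ℝ) + c₂ + 3 := by
    rw [hM]; push_cast; ring
  generalize hk : M * (n + 1) = k at e₁ e₂
  set ε : ℝ := 1 / ((k : ℝ) + 1) with hε
  have εpos : 0 < ε := by positivity
  have ε1 : ε ≤ 1 := by
    rw [hε, div_le_one (by positivity)]
    have : (0 : ℝ) ≤ k := Nat.cast_nonneg k
    linarith
  have e₂' : |b| ≤ |B| + ε := by
    have := abs_sub_abs_le_abs_sub b B
    rw [abs_sub_comm] at this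
    linarith
  have key : |A * B - a * b| ≤ (M : ℝ) * ε := by
    have : A * B - a * b = A * (B - b) + b * (A - a) := by ring
    rw [this]
    calc |A * (B - b) + b * (A - a)|
        ≤ |A * (B - b)| + |b * (A - a)| := abs_add_le _ _
      _ = |A| * |B - b| + |b| * |A - a| := by rw [abs_mul, abs_mul]
      _ ≤ |A| * ε + (|B| + ε) * ε := by
          gcongr
      _ ≤ (M : ℝ) * ε := by
          rw [← add_mul]
          gcongr
          rw [Mval]
          linarith
  have hfin : (M : ℝ) * ε ≤ 1 / ((n : ℝ) + 1) := by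
    rw [hε, ← hk]
    push_cast
    rw [mul_one_div, div_le_div_iff₀ (by positivity) (by positivity)]
    nlinarith [Mpos]
  exact key.trans hfin

theorem CR.mul {F G : D → ℝ} (hF : CR F) (hG : CR G) : CR (fun d => F d * G d) := by
  obtain ⟨E₁, hE₁, h₁⟩ := hF
  obtain ⟨E₂, hE₂, h₂⟩ := hG
  obtain ⟨M, hM, hMdef⟩ : ∃ M : D → ℕ, Computable M ∧
      ∀ d, M d = qceil (qabs (E₁ d 0)) + qceil (qabs (E₂ d 0)) + 3 := by
    refine ⟨_, ?_, fun d => rfl⟩
    have a : Computable fun d : D => E₁ d 0 := hE₁.comp Computable.id (Computable.const 0)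
    have b : Computable fun d : D => E₂ d 0 := hE₂.comp Computable.id (Computable.const 0)
    have c : Computable fun d : D => (E₁ d 0, E₂ d 0) := a.pair b
    have p : Primrec fun x : QQ × QQ => qceil (qabs x.1) + qceil (qabs x.2) + 3 :=
      prim_add (prim_add (prim_qceil (prim_qabs Primrec.fst)) (prim_qceil (prim_qabs Primrec.snd)))
        (Primrec.const 3)
    have := p.to_comp.comp c
    exact this
  refine ⟨fun d n => qmul (E₁ d (M d * (n + 1))) (E₂ d (M d * (n + 1))), ?_, fun d n => ?_⟩
  · have hk : Computable fun p : D × ℕ => M p.1 * (p.2 + 1) := by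
      have p : Primrec fun x : ℕ × ℕ => x.1 * (x.2 + 1) :=
        prim_mul Primrec.fst (prim_succ Primrec.snd)
      exact p.to_comp.comp ((hM.comp Computable.fst).pair Computable.snd)
    have h1 : Computable fun p : D × ℕ => E₁ p.1 (M p.1 * (p.2 + 1)) := hE₁.comp Computable.fst hk
    have h2 : Computable fun p : D × ℕ => E₂ p.1 (M p.1 * (p.2 + 1)) := hE₂.comp Computable.fst hk
    exact (prim_qmul Primrec.fst Primrec.snd).to_comp.comp (h1.pair h2)
  · have e := mul_estimate (F d) (G d) (val (E₁ d 0) : ℝ) (val (E₂ d 0) : ℝ)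
      (val (E₁ d (M d * (n + 1))) : ℝ) (val (E₂ d (M d * (n + 1))) : ℝ)
      (qceil (qabs (E₁ d 0))) (qceil (qabs (E₂ d 0))) (M d) n (hMdef d)
      (by simpa using h₁ d 0) (by simpa using h₂ d 0)
      (h₁ d _) (h₂ d _)
      (by
        have := val_le_qceil (qabs (E₁ d 0))
        rw [val_qabs] at this
        exact_mod_cast this)
      (by
        have := val_le_qceil (qabs (E₂ d 0))
        rw [val_qabs] at this
        exact_mod_cast this)
    have : ((val (qmul (E₁ d (M d * (n + 1))) (E₂ d (M d * (n + 1)))) : ℚ) : ℝ)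
        = (val (E₁ d (M d * (n + 1))) : ℝ) * (val (E₂ d (M d * (n + 1))) : ℝ) := by
      rw [val_qmul]; push_cast; rfl
    show |F d * G d - ((val (qmul (E₁ d (M d * (n + 1))) (E₂ d (M d * (n + 1)))) : ℚ) : ℝ)| ≤ _
    rw [this]
    exact e

theorem CR.sum {ι : Type*} (s : Finset ι) {F : ι → D → ℝ} (h : ∀ i ∈ s, CR (F i)) :
    CR (fun d => ∑ i ∈ s, F i d) := by
  classical
  induction s using Finset.induction_on with
  | empty => simpa using CR.const (D := D) 0
  | insert a s ha ih =>
    have := (h a (Finset.mem_insert_self a s)).add (ih fun i hi => h i (Finset.mem_insert_of_mem hi))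
    refine this.congr fun d => ?_
    rw [Finset.sum_insert ha]

theorem CR.prod {ι : Type*} (s : Finset ι) {F : ι → D → ℝ} (h : ∀ i ∈ s, CR (F i)) :
    CR (fun d => ∏ i ∈ s, F i d) := by
  classical
  induction s using Finset.induction_on with
  | empty => simpa using CR.const (D := D) 1
  | insert a s ha ih =>
    have := (h a (Finset.mem_insert_self a s)).mul (ih fun i hi => h i (Finset.mem_insert_of_mem hi))
    refine this.congr fun d => ?_
    rw [Finset.prod_insert ha]

end CR

/-- A smooth function of one real variable with uniformly computable derivatives at rational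
points and computable bounds on its derivatives. -/
structure EffFun (f : ℝ → ℝ) : Prop where
  smooth : ContDiff ℝ ∞ f
  approx : CR (fun p : ℕ × QQ => iteratedDeriv p.1 f (val p.2 : ℝ))
  bound : ∃ B : ℕ → ℕ, Computable B ∧ ∀ k x, |iteratedDeriv k f x| ≤ (B k : ℝ)

theorem EffFun.deriv {f : ℝ → ℝ} (hf : EffFun f) : EffFun (deriv f) := by
  obtain ⟨hs, ha, B, hB, hb⟩ := hf
  refine ⟨?_, ?_, fun k => B (k + 1), hB.comp Computable.succ, fun k x => ?_⟩
  · exact (contDiff_infty_iff_deriv.mp hs).2
  · have hg : Computable fun p : ℕ × QQ => (p.1 + 1, p.2) :=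
      (Computable.succ.comp Computable.fst).pair Computable.snd
    refine (ha.comp hg).congr fun p => ?_
    simp only
    rw [iteratedDeriv_succ']
  · rw [← iteratedDeriv_succ']
    exact hb (k + 1) x

theorem EffFun.const_mul {f : ℝ → ℝ} (hf : EffFun f) (c : ℚ) :
    EffFun (fun x => (c : ℝ) * f x) := by
  obtain ⟨hs, ha, B, hB, hb⟩ := hf
  have hformula : ∀ k x, iteratedDeriv k (fun x => (c : ℝ) * f x) x = c * iteratedDeriv k f x := by
    intro k x
    exact iteratedDeriv_const_mul_field (c : ℝ) f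
  refine ⟨contDiff_const.mul hs, ?_, fun k => qceil (qabs (ofRat c)) * B k, ?_, fun k x => ?_⟩
  · refine ((CR.const c).mul ha).congr fun p => ?_
    rw [hformula]
  · have : Primrec fun n : ℕ => qceil (qabs (ofRat c)) * n :=
      prim_mul (Primrec.const _) Primrec.id
    exact this.to_comp.comp hB
  · rw [hformula, abs_mul]
    push_cast
    have h1 : |(c : ℝ)| ≤ qceil (qabs (ofRat c)) := by
      have := val_le_qceil (qabs (ofRat c))
      rw [val_qabs, val_ofRat] at this
      exact_mod_cast this
    have h2 := hb k x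
    gcongr

theorem EffFun.add {f g : ℝ → ℝ} (hf : EffFun f) (hg : EffFun g) : EffFun (fun x => f x + g x) := by
  obtain ⟨hs, ha, B, hB, hb⟩ := hf
  obtain ⟨hs', ha', B', hB', hb'⟩ := hg
  have hformula : ∀ k x, iteratedDeriv k (fun x => f x + g x) x
      = iteratedDeriv k f x + iteratedDeriv k g x := by
    intro k x
    have := iteratedDeriv_add (𝕜 := ℝ) (n := k) (f := f) (g := g) (x := x)
      ((hs.of_le (by exact_mod_cast le_top)).contDiffAt) ((hs'.of_le (by exact_mod_cast le_top)).contDiffAt)
    exact this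
  refine ⟨hs.add hs', ?_, fun k => B k + B' k, ?_, fun k x => ?_⟩
  · refine (ha.add ha').congr fun p => ?_
    rw [hformula]
  · exact Primrec.nat_add.to_comp.comp hB hB'
  · rw [hformula]
    push_cast
    exact (abs_add_le _ _).trans (add_le_add (hb k x) (hb' k x))

/-- Composition with an affine map with rational coefficients. -/
theorem EffFun.comp_affine {f : ℝ → ℝ} (hf : EffFun f) (l m : ℚ) :
    EffFun (fun x => f ((l : ℝ) * x + m)) := by
  obtain ⟨hs, ha, B, hB, hb⟩ := hf
  have hformula : ∀ k x, iteratedDeriv k (fun x => f ((l : ℝ) * x + m)) x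
      = (l : ℝ) ^ k * iteratedDeriv k f ((l : ℝ) * x + m) := by
    intro k x
    have h1 : (fun x => f ((l : ℝ) * x + m)) = (fun y => (fun z => f (z + m)) (l * y)) := rfl
    rw [h1]
    have h2 : ContDiff ℝ k (fun z => f (z + (m : ℝ))) :=
      (hs.of_le (by exact_mod_cast le_top)).comp (contDiff_id.add contDiff_const)
    have h3 := congrFun (iteratedDeriv_comp_const_mul (𝕜 := ℝ) (n := k) (f := fun z => f (z + (m : ℝ))) h2 (l : ℝ)) x
    rw [h3]
    congr 1
    have h4 := congrFun (iteratedDeriv_comp_add_const (𝕜 := ℝ) k f (m : ℝ)) ((l : ℝ) * x)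
    exact h4
  refine ⟨hs.comp ((contDiff_const.mul contDiff_id).add contDiff_const), ?_,
    fun k => (qceil (qabs (ofRat l))) ^ k * B k, ?_, fun k x => ?_⟩
  · have h1 : CR (fun p : ℕ × QQ => ((val (qpow (ofRat l) p.1) : ℚ) : ℝ)) :=
      CR.of_qq (prim_qpow (Primrec.const _) Primrec.fst).to_comp
    have hg : Computable fun p : ℕ × QQ =>
        ((p.1, qadd (qmul (ofRat l) p.2) (ofRat m)) : ℕ × QQ) :=
      (Primrec.fst.pair (prim_qadd (prim_qmul (Primrec.const _) Primrec.snd)
        (Primrec.const _))).to_comp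
    refine (h1.mul (ha.comp hg)).congr fun p => ?_
    rw [hformula]
    simp only [val_qpow, val_ofRat, val_qadd, val_qmul]
    push_cast
    rfl
  · have hpow : Primrec fun k : ℕ => (qceil (qabs (ofRat l))) ^ k := by
      refine (Primrec.nat_rec₁ (f := fun _ ih => ih * qceil (qabs (ofRat l))) 1 ?_).of_eq ?_
      · exact (prim_mul (Primrec.snd (α := ℕ) (β := ℕ)) (Primrec.const _)).to₂
      · intro k
        induction k with
        | zero => simp
        | succ k ih => simp only [pow_succ]; rw [← ih]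
    exact Primrec.nat_mul.to_comp.comp hpow.to_comp hB
  · rw [hformula, abs_mul, abs_pow]
    push_cast
    have h1 : |(l : ℝ)| ≤ qceil (qabs (ofRat l)) := by
      have := val_le_qceil (qabs (ofRat l))
      rw [val_qabs, val_ofRat] at this
      exact_mod_cast this
    have h2 := hb k ((l : ℝ) * x + m)
    gcongr

/-- A function which near every point is one of two effective functions, decided by a rational
threshold. -/
theorem EffFun.of_local {f f₁ f₂ : ℝ → ℝ} (hs : ContDiff ℝ ∞ f) (h₁ : EffFun f₁) (h₂ : EffFun f₂)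
    (c : ℚ) (hc₁ : ∀ x : ℝ, x ≤ c → f =ᶠ[nhds x] f₁) (hc₂ : ∀ x : ℝ, (c : ℝ) ≤ x → f =ᶠ[nhds x] f₂) :
    EffFun f := by
  obtain ⟨hs₁, ha₁, B₁, hB₁, hb₁⟩ := h₁
  obtain ⟨hs₂, ha₂, B₂, hB₂, hb₂⟩ := h₂
  obtain ⟨E₁, hE₁, he₁⟩ := ha₁
  obtain ⟨E₂, hE₂, he₂⟩ := ha₂
  refine ⟨hs, ?_, fun k => B₁ k + B₂ k, Primrec.nat_add.to_comp.comp hB₁ hB₂, fun k x => ?_⟩
  · refine ⟨fun p n => if qle p.2 (ofRat c) then E₁ p n else E₂ p n, ?_, fun p n => ?_⟩
    · have hd : Computable fun q : (ℕ × QQ) × ℕ => decide (qle q.1.2 (ofRat c)) :=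
        ((prim_qle (Primrec.snd.comp Primrec.fst) (Primrec.const _)).decide).to_comp
      refine (Computable.cond hd hE₁ hE₂).of_eq fun q => ?_
      by_cases h : qle q.1.2 (ofRat c) <;> simp [h]
    · show |iteratedDeriv p.1 f (val p.2 : ℝ) - (val (if qle p.2 (ofRat c) then E₁ p n else E₂ p n) : ℝ)| ≤ _
      by_cases h : qle p.2 (ofRat c)
      · rw [if_pos h, (hc₁ _ ?_).iteratedDeriv_eq]
        · exact he₁ p n
        · rw [qle_iff, val_ofRat] at h
          exact_mod_cast h
      · rw [if_neg h, (hc₂ _ ?_).iteratedDeriv_eq]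
        · exact he₂ p n
        · rw [qle_iff, val_ofRat] at h
          have h' := (not_le.mp h).le
          exact_mod_cast h'
  · push_cast
    rcases le_total x c with h | h
    · rw [(hc₁ x h).iteratedDeriv_eq]
      exact (hb₁ k x).trans (by simp)
    · rw [(hc₂ x h).iteratedDeriv_eq]
      exact (hb₂ k x).trans (by simp)

/-- Multiplication by the coordinate, for a function with bounded support. -/
theorem EffFun.mul_id {f : ℝ → ℝ} (hf : EffFun f) (R : ℕ) (hR : ∀ x : ℝ, (R : ℝ) < |x| → f x = 0) :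
    EffFun (fun x => x * f x) := by
  obtain ⟨hs, ha, B, hB, hb⟩ := hf
  -- the Leibniz formula
  have hformula : ∀ k x, iteratedDeriv (k + 1) (fun x => x * f x) x
      = x * iteratedDeriv (k + 1) f x + (k + 1) * iteratedDeriv k f x := by
    intro k
    induction k with
    | zero =>
      intro x
      simp only [zero_add, iteratedDeriv_one, iteratedDeriv_zero, Nat.cast_zero]
      have hd : DifferentiableAt ℝ f x := (hs.differentiable (by simp)).differentiableAt
      have := (hasDerivAt_id' x).fun_mul hd.hasDerivAt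
      rw [this.deriv]
      ring
    | succ k ih =>
      intro x
      rw [iteratedDeriv_succ]
      have h1 : iteratedDeriv (k + 1) (fun x => x * f x)
          = fun x => x * iteratedDeriv (k + 1) f x + (k + 1) * iteratedDeriv k f x := funext ih
      rw [h1]
      have d1 : DifferentiableAt ℝ (iteratedDeriv (k + 1) f) x :=
        ((hs.differentiable_iteratedDeriv (k + 1) (by exact_mod_cast WithTop.coe_lt_top _)) x)
      have d2 : DifferentiableAt ℝ (iteratedDeriv k f) x :=
        ((hs.differentiable_iteratedDeriv k (by exact_mod_cast WithTop.coe_lt_top _)) x)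
      have h2 := ((hasDerivAt_id' x).fun_mul d1.hasDerivAt).fun_add
        ((hasDerivAt_const x (((k : ℝ) + 1))).fun_mul d2.hasDerivAt)
      rw [h2.deriv]
      have e1 : _root_.deriv (iteratedDeriv k f) x = iteratedDeriv (k + 1) f x := by
        rw [iteratedDeriv_succ]
      have e2 : _root_.deriv (iteratedDeriv (k + 1) f) x = iteratedDeriv (k + 1 + 1) f x := by
        rw [iteratedDeriv_succ (n := k + 1)]
      rw [e1, e2]
      push_cast
      ring
  have hformula0 : ∀ x, iteratedDeriv 0 (fun x => x * f x) x = x * iteratedDeriv 0 f x := by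
    intro x; simp
  -- vanishing outside the support
  have hvanish : ∀ k x, (R : ℝ) < |x| → iteratedDeriv k f x = 0 := by
    intro k x hx
    have hev : f =ᶠ[nhds x] (fun _ => 0) := by
      have hopen : IsOpen {y : ℝ | (R : ℝ) < |y|} := isOpen_lt continuous_const continuous_abs
      filter_upwards [hopen.mem_nhds hx] with y hy using hR y hy
    rw [hev.iteratedDeriv_eq]
    simp
  have hbd : ∀ k x, |x * iteratedDeriv k f x| ≤ (R : ℝ) * B k := by
    intro k x
    by_cases hx : (R : ℝ) < |x|
    · rw [hvanish k x hx]; simp; positivity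
    · rw [abs_mul]
      gcongr
      · exact not_lt.mp hx
      · exact hb k x
  refine ⟨contDiff_id.mul hs, ?_,
    fun k => Nat.casesOn (motive := fun _ => ℕ) k (R * B 0) (fun j => R * B (j + 1) + (j + 1) * B j),
    ?_, fun k x => ?_⟩
  · -- approximation
    have h0 : CR (fun p : ℕ × QQ => (val p.2 : ℝ) * iteratedDeriv p.1 f (val p.2 : ℝ)) :=
      (CR.of_qq (Primrec.snd.to_comp)).mul ha
    have h1 : CR (fun p : ℕ × QQ => (((p.1 : ℕ) : ℚ) : ℝ) * iteratedDeriv (p.1 - 1) f (val p.2 : ℝ)) := by
      have h2 : CR (fun p : ℕ × QQ => (val (qnat p.1) : ℝ)) :=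
        CR.of_qq (prim_qnat Primrec.fst).to_comp
      have hg : Computable fun p : ℕ × QQ => ((p.1 - 1, p.2) : ℕ × QQ) :=
        ((prim_sub Primrec.fst (Primrec.const 1)).pair Primrec.snd).to_comp
      refine (h2.mul (ha.comp hg)).congr fun p => ?_
      simp
    refine (h0.add h1).congr fun p => ?_
    rcases p with ⟨k, y⟩
    cases k with
    | zero => simp
    | succ k =>
      simp only
      rw [hformula]
      push_cast
      simp
  · refine Computable.of_eq (f := fun k => Nat.casesOn (motive := fun _ => ℕ) k (R * B 0)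
      (fun j => R * B (j + 1) + (j + 1) * B j)) ?_ (fun k => rfl)
    refine Computable.nat_casesOn (f := fun k : ℕ => k) (g := fun _ => R * B 0)
      (h := fun _ j => R * B (j + 1) + (j + 1) * B j) Computable.id (Computable.const _) ?_
    have h1 : Computable fun j : ℕ => R * B (j + 1) :=
      Primrec.nat_mul.to_comp.comp (Computable.const R) (hB.comp Computable.succ)
    have h2 : Computable fun j : ℕ => (j + 1) * B j :=
      Primrec.nat_mul.to_comp.comp Computable.succ hB
    exact (Primrec.nat_add.to_comp.comp (h1.comp Computable.snd) (h2.comp Computable.snd)).to₂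
  · cases k with
    | zero =>
      simpa using hbd 0 x
    | succ k =>
      rw [hformula]
      have a := hbd (k + 1) x
      have b : |((k : ℝ) + 1) * iteratedDeriv k f x| ≤ ((k : ℝ) + 1) * B k := by
        rw [abs_mul, abs_of_pos (by positivity)]
        gcongr
        exact hb k x
      simp only
      push_cast
      exact (abs_add_le _ _).trans (add_le_add a b)

end Crest.Agent.Lib.BoxFlow
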