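import Crest.Agent.Lib.BoxFlow.Tensor

set_option autoImplicit false

/-!
The velocity field attached to a finite list of "moves".
-/

namespace Crest.Agent.Lib.BoxFlow

open scoped ContDiff
open Crest.AnalysisR.BoxFlow

/-! ### Cut-off functions -/

theorem st_of_nonpos {y : ℝ} (h : y ≤ 0) : st y = 0 := Real.smoothTransition.zero_of_nonpos h
theorem st_of_one_le {y : ℝ} (h : 1 ≤ y) : st y = 1 := Real.smoothTransition.one_of_one_le h

/-- Rising part. -/
noncomputable def leftF (l μ : ℚ) (y : ℝ) : ℝ := st (((1 / μ : ℚ) : ℝ) * y + (((μ - l) / μ : ℚ) : ℝ))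

/-- Falling part. -/
noncomputable def rightF (u μ : ℚ) (y : ℝ) : ℝ :=
  st (((-1 / μ : ℚ) : ℝ) * y + (((u + μ) / μ : ℚ) : ℝ))

/-- The cut-off function. -/
noncomputable def cut (l u μ : ℚ) (y : ℝ) : ℝ := leftF l μ y * rightF u μ y

theorem leftF_eq_one {l μ : ℚ} (hμ : 0 < μ) {y : ℝ} (hy : (l : ℝ) ≤ y) : leftF l μ y = 1 := by
  apply st_of_one_le
  have hμ' : (0 : ℝ) < μ := by exact_mod_cast hμ
  push_cast
  rw [div_mul_eq_mul_div, ← add_div, le_div_iff₀ hμ']
  linarith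

theorem leftF_eq_zero {l μ : ℚ} (hμ : 0 < μ) {y : ℝ} (hy : y ≤ (l : ℝ) - μ) : leftF l μ y = 0 := by
  apply st_of_nonpos
  have hμ' : (0 : ℝ) < μ := by exact_mod_cast hμ
  push_cast
  rw [div_mul_eq_mul_div, ← add_div, div_le_iff₀ hμ']
  linarith

theorem rightF_eq_one {u μ : ℚ} (hμ : 0 < μ) {y : ℝ} (hy : y ≤ (u : ℝ)) : rightF u μ y = 1 := by
  apply st_of_one_le
  have hμ' : (0 : ℝ) < μ := by exact_mod_cast hμ
  push_cast
  rw [div_mul_eq_mul_div, ← add_div, le_div_iff₀ hμ']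
  linarith

theorem rightF_eq_zero {u μ : ℚ} (hμ : 0 < μ) {y : ℝ} (hy : (u : ℝ) + μ ≤ y) : rightF u μ y = 0 := by
  apply st_of_nonpos
  have hμ' : (0 : ℝ) < μ := by exact_mod_cast hμ
  push_cast
  rw [div_mul_eq_mul_div, ← add_div, div_le_iff₀ hμ']
  linarith

theorem effFun_leftF (l μ : ℚ) : EffFun (leftF l μ) := effFun_st.comp_affine _ _
theorem effFun_rightF (u μ : ℚ) : EffFun (rightF u μ) := effFun_st.comp_affine _ _

theorem contDiff_cut (l u μ : ℚ) : ContDiff ℝ ∞ (cut l u μ) :=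
  (effFun_leftF l μ).smooth.mul (effFun_rightF u μ).smooth

theorem cut_eq_one {l u μ : ℚ} (hμ : 0 < μ) {y : ℝ} (h1 : (l : ℝ) ≤ y) (h2 : y ≤ u) :
    cut l u μ y = 1 := by
  rw [cut, leftF_eq_one hμ h1, rightF_eq_one hμ h2, mul_one]

theorem cut_eq_zero {l u μ : ℚ} (hμ : 0 < μ) {y : ℝ} (h : y ≤ (l : ℝ) - μ ∨ (u : ℝ) + μ ≤ y) :
    cut l u μ y = 0 := by
  rcases h with h | h
  · rw [cut, leftF_eq_zero hμ h, zero_mul]
  · rw [cut, rightF_eq_zero hμ h, mul_zero]

theorem cut_eventually_one {l u μ : ℚ} (hμ : 0 < μ) {y : ℝ} (h1 : (l : ℝ) < y) (h2 : y < u) :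
    cut l u μ =ᶠ[nhds y] fun _ => 1 := by
  filter_upwards [Ioo_mem_nhds h1 h2] with z hz using cut_eq_one hμ hz.1.le hz.2.le

theorem cut_eventually_zero {l u μ : ℚ} (hμ : 0 < μ) {y : ℝ}
    (h : y < (l : ℝ) - μ ∨ (u : ℝ) + μ < y) : cut l u μ =ᶠ[nhds y] fun _ => 0 := by
  rcases h with h | h
  · filter_upwards [Iio_mem_nhds h] with z hz using cut_eq_zero hμ (Or.inl (le_of_lt hz))
  · filter_upwards [Ioi_mem_nhds h] with z hz using cut_eq_zero hμ (Or.inr (le_of_lt hz))

theorem effFun_cut {l u μ : ℚ} (hμ : 0 < μ) (hlu : l < u) : EffFun (cut l u μ) := by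
  have hlu' : (l : ℝ) < u := by exact_mod_cast hlu
  have hc1 : (l : ℝ) < ((l + u) / 2 : ℚ) := by push_cast; linarith
  have hc2 : (((l + u) / 2 : ℚ) : ℝ) < u := by push_cast; linarith
  refine EffFun.of_local (contDiff_cut l u μ) (effFun_leftF l μ) (effFun_rightF u μ) ((l + u) / 2)
    ?_ ?_
  · intro x hx
    have hxu : x < u := lt_of_le_of_lt hx hc2
    filter_upwards [Iio_mem_nhds hxu] with z hz
    rw [cut, rightF_eq_one hμ hz.le, mul_one]
  · intro x hx
    have hxl : (l : ℝ) < x := lt_of_lt_of_le hc1 hx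
    filter_upwards [Ioi_mem_nhds hxl] with z hz
    rw [cut, leftF_eq_one hμ hz.le, one_mul]

theorem exists_support_bound (l u μ : ℚ) (hμ : 0 < μ) :
    ∃ R : ℕ, ∀ x : ℝ, (R : ℝ) < |x| → cut l u μ x = 0 := by
  obtain ⟨R, hR⟩ := exists_nat_ge (|(l : ℝ) - μ| + |(u : ℝ) + μ|)
  refine ⟨R, fun x hx => cut_eq_zero hμ ?_⟩
  have h1 := abs_nonneg ((l : ℝ) - μ)
  have h2 := abs_nonneg ((u : ℝ) + μ)
  have h3 := le_abs_self ((u : ℝ) + μ)
  have h4 := neg_abs_le ((l : ℝ) - μ)
  rcases lt_abs.mp (hR.trans_lt hx |> fun h => (by linarith : |(l : ℝ) - μ| + |(u : ℝ) + μ| < |x|)) with h | h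
  · right; linarith
  · left; linarith

/-- The integrated profile. -/
noncomputable def gfun (l u μ α γ : ℚ) (y : ℝ) : ℝ :=
  (α : ℝ) * (y * cut l u μ y) + ((γ / 2 : ℚ) : ℝ) * (y * (y * cut l u μ y))

theorem contDiff_gfun (l u μ α γ : ℚ) : ContDiff ℝ ∞ (gfun l u μ α γ) := by
  unfold gfun
  have h := contDiff_cut l u μ
  have h1 : ContDiff ℝ ∞ (fun y : ℝ => y * cut l u μ y) := contDiff_id.mul h
  have h2 : ContDiff ℝ ∞ (fun y : ℝ => y * (y * cut l u μ y)) := contDiff_id.mul h1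
  exact (contDiff_const.mul h1).add (contDiff_const.mul h2)

theorem effFun_gfun {l u μ : ℚ} (α γ : ℚ) (hμ : 0 < μ) (hlu : l < u) : EffFun (gfun l u μ α γ) := by
  obtain ⟨R, hR⟩ := exists_support_bound l u μ hμ
  have h0 := effFun_cut hμ hlu
  have h1 := h0.mul_id R hR
  have h2 := h1.mul_id R (fun x hx => by simp [hR x hx])
  exact (h1.const_mul α).add (h2.const_mul (γ / 2))

theorem gfun_eq_zero {l u μ α γ : ℚ} (hμ : 0 < μ) {y : ℝ}
    (h : y ≤ (l : ℝ) - μ ∨ (u : ℝ) + μ ≤ y) : gfun l u μ α γ y = 0 := by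
  simp [gfun, cut_eq_zero hμ h]

theorem gfun_eventually_zero {l u μ α γ : ℚ} (hμ : 0 < μ) {y : ℝ}
    (h : y < (l : ℝ) - μ ∨ (u : ℝ) + μ < y) : gfun l u μ α γ =ᶠ[nhds y] fun _ => 0 := by
  rcases h with h | h
  · filter_upwards [Iio_mem_nhds h] with z hz using gfun_eq_zero hμ (Or.inl (le_of_lt hz))
  · filter_upwards [Ioi_mem_nhds h] with z hz using gfun_eq_zero hμ (Or.inr (le_of_lt hz))

theorem deriv_gfun_plateau {l u μ α γ : ℚ} (hμ : 0 < μ) {y : ℝ} (h1 : (l : ℝ) < y) (h2 : y < u) :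
    _root_.deriv (gfun l u μ α γ) y = (α : ℝ) + γ * y := by
  have hev : gfun l u μ α γ =ᶠ[nhds y]
      fun z => (α : ℝ) * (z * 1) + ((γ / 2 : ℚ) : ℝ) * (z * (z * 1)) := by
    filter_upwards [Ioo_mem_nhds h1 h2] with z hz
    simp only [gfun]
    rw [cut_eq_one hμ hz.1.le hz.2.le]
  rw [hev.deriv_eq]
  have hd : HasDerivAt (fun z : ℝ => (α : ℝ) * (z * 1) + ((γ / 2 : ℚ) : ℝ) * (z * (z * 1)))
      ((α : ℝ) * (1 * 1) + ((γ / 2 : ℚ) : ℝ) * (1 * (y * 1) + y * (1 * 1))) y := by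
    have i := hasDerivAt_id' y
    have i1 := i.fun_mul (hasDerivAt_const y (1 : ℝ))
    have i2 : HasDerivAt (fun z : ℝ => z * 1) (1 * 1) y := by
      refine i1.congr_deriv ?_
      ring
    have i3 := i.fun_mul i2
    exact (i2.const_mul (α : ℝ)).fun_add (i3.const_mul _)
  rw [hd.deriv]
  push_cast
  ring

/-! ### Time factors -/

/-- The time reparametrisation: `st ((t - t₀) / δ)`. -/
noncomputable def tauF (t₀ δ : ℚ) (t : ℝ) : ℝ :=
  st (((1 / δ : ℚ) : ℝ) * t + ((-t₀ / δ : ℚ) : ℝ))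

theorem effFun_tauF (t₀ δ : ℚ) : EffFun (tauF t₀ δ) := effFun_st.comp_affine _ _

theorem tauF_eq_zero {t₀ δ : ℚ} (hδ : 0 < δ) {t : ℝ} (h : t ≤ t₀) : tauF t₀ δ t = 0 := by
  apply st_of_nonpos
  have hδ' : (0 : ℝ) < δ := by exact_mod_cast hδ
  push_cast
  rw [div_mul_eq_mul_div, ← add_div, div_le_iff₀ hδ']
  linarith

theorem tauF_eq_one {t₀ δ : ℚ} (hδ : 0 < δ) {t : ℝ} (h : (t₀ : ℝ) + δ ≤ t) : tauF t₀ δ t = 1 := by
  apply st_of_one_le
  have hδ' : (0 : ℝ) < δ := by exact_mod_cast hδ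
  push_cast
  rw [div_mul_eq_mul_div, ← add_div, le_div_iff₀ hδ']
  linarith

theorem contDiff_tauF (t₀ δ : ℚ) : ContDiff ℝ ∞ (tauF t₀ δ) := (effFun_tauF t₀ δ).smooth

/-- The derivative of the time factor. -/
noncomputable def dtauF (t₀ δ : ℚ) : ℝ → ℝ := _root_.deriv (tauF t₀ δ)

theorem effFun_dtauF (t₀ δ : ℚ) : EffFun (dtauF t₀ δ) := (effFun_tauF t₀ δ).deriv

theorem hasDerivAt_tauF (t₀ δ : ℚ) (t : ℝ) : HasDerivAt (tauF t₀ δ) (dtauF t₀ δ t) t :=
  ((contDiff_tauF t₀ δ).differentiable (by simp) t).hasDerivAt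

theorem deriv_eq_iteratedDeriv_one {f : ℝ → ℝ} (x : ℝ) :
    _root_.deriv f x = iteratedDeriv 1 f x := by
  simp

theorem tauF_eq_st_comp (t₀ δ : ℚ) :
    tauF t₀ δ = fun t => st (((1 / δ : ℚ) : ℝ) * t + ((-t₀ / δ : ℚ) : ℝ)) := rfl

theorem dtauF_eq (t₀ δ : ℚ) (t : ℝ) :
    dtauF t₀ δ t = ((1 / δ : ℚ) : ℝ) * _root_.deriv st (((1 / δ : ℚ) : ℝ) * t + ((-t₀ / δ : ℚ) : ℝ)) := by
  have hd : DifferentiableAt ℝ st (((1 / δ : ℚ) : ℝ) * t + ((-t₀ / δ : ℚ) : ℝ)) :=
    (st_contDiff.differentiable (by simp)) _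
  have h1 : HasDerivAt (fun t : ℝ => ((1 / δ : ℚ) : ℝ) * t + ((-t₀ / δ : ℚ) : ℝ))
      ((1 / δ : ℚ) : ℝ) t := by
    have := ((hasDerivAt_id' t).const_mul ((1 / δ : ℚ) : ℝ)).add_const ((-t₀ / δ : ℚ) : ℝ)
    simpa using this
  have h2 := hd.hasDerivAt.comp t h1
  have h3 : HasDerivAt (tauF t₀ δ)
      (_root_.deriv st (((1 / δ : ℚ) : ℝ) * t + ((-t₀ / δ : ℚ) : ℝ)) * ((1 / δ : ℚ) : ℝ)) t := h2
  rw [dtauF, h3.deriv, mul_comm]

theorem dtauF_eq_zero {t₀ δ : ℚ} (hδ : 0 < δ) {t : ℝ} (h : t ≤ t₀ ∨ (t₀ : ℝ) + δ ≤ t) :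
    dtauF t₀ δ t = 0 := by
  have hδ' : (0 : ℝ) < δ := by exact_mod_cast hδ
  rw [dtauF_eq]
  rw [deriv_eq_iteratedDeriv_one]
  rcases h with h | h
  · rw [iteratedDeriv_st_of_nonpos, mul_zero]
    push_cast
    rw [div_mul_eq_mul_div, ← add_div, div_le_iff₀ hδ']
    linarith
  · rw [iteratedDeriv_st_of_one_le, if_neg one_ne_zero, mul_zero]
    push_cast
    rw [div_mul_eq_mul_div, ← add_div, le_div_iff₀ hδ']
    linarith

theorem exists_dtauF_bound (t₀ δ : ℚ) (hδ : 0 < δ) :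
    ∃ R : ℝ, ∀ t : ℝ, R < |t| → dtauF t₀ δ t = 0 := by
  refine ⟨|(t₀ : ℝ)| + |(t₀ : ℝ) + δ|, fun t ht => dtauF_eq_zero hδ ?_⟩
  have h1 := abs_nonneg (t₀ : ℝ)
  have h2 := abs_nonneg ((t₀ : ℝ) + δ)
  have h3 := le_abs_self ((t₀ : ℝ) + δ)
  have h4 := neg_abs_le (t₀ : ℝ)
  rcases lt_abs.mp ht with h | h
  · right; linarith
  · left; linarith

/-! ### Moves -/

/-- A move: inside the plateau box `∏ (l i, u i)` the field is `(α + γ x_q) e_p`; it vanishes
outside the box enlarged by `μ`. -/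
structure Move where
  p : Fin 3
  q : Fin 3
  α : ℚ
  γ : ℚ
  l : Fin 3 → ℚ
  u : Fin 3 → ℚ
  μ : ℚ

/-- Validity. -/
structure Move.Valid (m : Move) : Prop where
  ne : m.p ≠ m.q
  μ_pos : 0 < m.μ
  lt : ∀ i, m.l i < m.u i

/-- The cut-off in coordinate `i`. -/
noncomputable def Move.b (m : Move) (i : Fin 3) : ℝ → ℝ := cut (m.l i) (m.u i) m.μ

/-- The profile in coordinate `q`. -/
noncomputable def Move.g (m : Move) : ℝ → ℝ := gfun (m.l m.q) (m.u m.q) m.μ m.α m.γ

/-- The factors of the `p` component. -/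
noncomputable def Move.fA (m : Move) (i : Fin 3) : ℝ → ℝ :=
  if i = m.q then _root_.deriv m.g else m.b i

/-- The factors of the `q` component. -/
noncomputable def Move.fB (m : Move) (i : Fin 3) : ℝ → ℝ :=
  if i = m.q then m.g else if i = m.p then _root_.deriv (m.b i) else m.b i

/-- The velocity field of a move. -/
noncomputable def Move.V (m : Move) (y : Fin 3 → ℝ) : Fin 3 → ℝ := fun j =>
  (∏ i, m.fA i (y i)) * (if j = m.p then 1 else 0) + (∏ i, m.fB i (y i)) * (if j = m.q then -1 else 0)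

/-- The open plateau. -/
def Move.Act (m : Move) (y : Fin 3 → ℝ) : Prop := ∀ i, (m.l i : ℝ) < y i ∧ y i < (m.u i : ℝ)

/-- The closed support. -/
def Move.Supp (m : Move) (y : Fin 3 → ℝ) : Prop :=
  ∀ i, (m.l i : ℝ) - m.μ ≤ y i ∧ y i ≤ (m.u i : ℝ) + m.μ

theorem Move.effFun_b {m : Move} (hm : m.Valid) (i : Fin 3) : EffFun (m.b i) :=
  effFun_cut hm.μ_pos (hm.lt i)

theorem Move.effFun_g {m : Move} (hm : m.Valid) : EffFun m.g :=
  effFun_gfun _ _ hm.μ_pos (hm.lt _)

theorem Move.effFun_fA {m : Move} (hm : m.Valid) (i : Fin 3) : EffFun (m.fA i) := by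
  unfold Move.fA
  split_ifs
  · exact (Move.effFun_g hm).deriv
  · exact Move.effFun_b hm i

theorem Move.effFun_fB {m : Move} (hm : m.Valid) (i : Fin 3) : EffFun (m.fB i) := by
  unfold Move.fB
  split_ifs
  · exact Move.effFun_g hm
  · exact (Move.effFun_b hm i).deriv
  · exact Move.effFun_b hm i

theorem Move.V_of_act {m : Move} (hm : m.Valid) {y : Fin 3 → ℝ} (hy : m.Act y) :
    m.V y = fun j => if j = m.p then (m.α : ℝ) + m.γ * y m.q else 0 := by
  have hμ := hm.μ_pos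
  have hA : ∏ i, m.fA i (y i) = (m.α : ℝ) + m.γ * y m.q := by
    rw [← Finset.mul_prod_erase Finset.univ _ (Finset.mem_univ m.q)]
    have h1 : m.fA m.q (y m.q) = (m.α : ℝ) + m.γ * y m.q := by
      simp only [Move.fA, if_true]
      exact deriv_gfun_plateau hμ (hy m.q).1 (hy m.q).2
    rw [h1]
    have h2 : ∏ i ∈ Finset.univ.erase m.q, m.fA i (y i) = 1 := by
      refine Finset.prod_eq_one fun i hi => ?_
      have hne := Finset.ne_of_mem_erase hi
      simp only [Move.fA, if_neg hne]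
      exact cut_eq_one hμ (hy i).1.le (hy i).2.le
    rw [h2, mul_one]
  have hB : ∏ i, m.fB i (y i) = 0 := by
    refine Finset.prod_eq_zero (Finset.mem_univ m.p) ?_
    simp only [Move.fB, if_neg hm.ne, if_true]
    have hev := cut_eventually_one hμ (hy m.p).1 (hy m.p).2
    have : _root_.deriv (m.b m.p) (y m.p) = 0 := by
      unfold Move.b
      rw [hev.deriv_eq]
      simp
    exact this
  funext j
  simp only [Move.V, hA, hB, zero_mul, add_zero]
  split_ifs <;> simp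

theorem Move.V_of_not_supp {m : Move} (hm : m.Valid) {y : Fin 3 → ℝ} (hy : ¬ m.Supp y) :
    m.V y = 0 := by
  have hμ := hm.μ_pos
  unfold Move.Supp at hy
  push Not at hy
  obtain ⟨i, hi⟩ := hy
  have hout : y i < (m.l i : ℝ) - m.μ ∨ (m.u i : ℝ) + m.μ < y i := by
    by_cases h : (m.l i : ℝ) - m.μ ≤ y i
    · exact Or.inr (hi h)
    · exact Or.inl (not_le.mp h)
  have hb : m.b i =ᶠ[nhds (y i)] fun _ => 0 := cut_eventually_zero hμ hout
  have hA : ∏ j, m.fA j (y j) = 0 := by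
    refine Finset.prod_eq_zero (Finset.mem_univ i) ?_
    by_cases hq : i = m.q
    · subst hq
      simp only [Move.fA, if_true]
      have hg : m.g =ᶠ[nhds (y m.q)] fun _ => 0 := gfun_eventually_zero hμ hout
      rw [hg.deriv_eq]
      simp
    · simp only [Move.fA, if_neg hq]
      exact hb.self_of_nhds
  have hB : ∏ j, m.fB j (y j) = 0 := by
    refine Finset.prod_eq_zero (Finset.mem_univ i) ?_
    by_cases hq : i = m.q
    · subst hq
      simp only [Move.fB, if_true]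
      have hg : m.g =ᶠ[nhds (y m.q)] fun _ => 0 := gfun_eventually_zero hμ hout
      exact hg.self_of_nhds
    · simp only [Move.fB, if_neg hq]
      by_cases hp : i = m.p
      · simp only [if_pos hp]
        rw [hb.deriv_eq]
        simp
      · simp only [if_neg hp]
        exact hb.self_of_nhds
  funext j
  simp [Move.V, hA, hB]

/-! ### The total field -/

/-- Tuples of functions. -/
def tup (f₀ : ℝ → ℝ) (f : Fin 3 → ℝ → ℝ) : Fin 4 → ℝ → ℝ := fun i => Fin.cases f₀ f i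

@[simp] theorem tup_zero (f₀ : ℝ → ℝ) (f : Fin 3 → ℝ → ℝ) : tup f₀ f 0 = f₀ := rfl
@[simp] theorem tup_succ (f₀ : ℝ → ℝ) (f : Fin 3 → ℝ → ℝ) (j : Fin 3) : tup f₀ f j.succ = f j := rfl

theorem tens_tup (f₀ : ℝ → ℝ) (f : Fin 3 → ℝ → ℝ) (t : ℝ) (x : Fin 3 → ℝ) :
    tens (tup f₀ f) (t, x) = f₀ t * ∏ j, f j (x j) := by
  rw [tens_eq]
  simp

/-- The step of the time grid. -/
def gridStep (N : ℕ) : ℚ := 1 / (2 * N)

/-- The time grid. -/
def gridT (N k : ℕ) : ℚ := 1 / 4 + k * gridStep N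

theorem gridStep_pos {N : ℕ} (hN : 0 < N) : 0 < gridStep N := by
  unfold gridStep
  positivity

/-- The factors of the total field. -/
noncomputable def totF {N : ℕ} (M : Fin N → Move) (s : Fin N × Bool) : Fin 4 → ℝ → ℝ :=
  tup (dtauF (gridT N s.1) (gridStep N)) (if s.2 then (M s.1).fA else (M s.1).fB)

/-- The constant vectors of the total field. -/
def totC {N : ℕ} (M : Fin N → Move) (s : Fin N × Bool) (j : Fin 3) : ℚ :=
  if s.2 then (if j = (M s.1).p then 1 else 0) else (if j = (M s.1).q then -1 else 0)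

/-- The total field of a family of moves. -/
noncomputable def totU {N : ℕ} (M : Fin N → Move) : Field :=
  fun p j => ∑ s, tens (totF M s) p * (totC M s j : ℝ)

theorem totU_eq {N : ℕ} (M : Fin N → Move) (t : ℝ) (x : Fin 3 → ℝ) (j : Fin 3) :
    totU M (t, x) j = ∑ k : Fin N, dtauF (gridT N k.1) (gridStep N) t * (M k).V x j := by
  unfold totU
  rw [Fintype.sum_prod_type]
  refine Finset.sum_congr rfl fun k _ => ?_
  rw [Fintype.sum_bool]
  simp only [totF, totC, if_true, if_false, Bool.false_eq_true, tens_tup, Move.V]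
  split_ifs <;> ring

theorem effFun_totF {N : ℕ} (M : Fin N → Move) (hM : ∀ k, (M k).Valid) (s : Fin N × Bool)
    (i : Fin 4) : EffFun (totF M s i) := by
  refine Fin.cases ?_ (fun j => ?_) i
  · exact effFun_dtauF _ _
  · obtain ⟨k, b⟩ := s
    cases b
    · exact Move.effFun_fB (hM k) j
    · exact Move.effFun_fA (hM k) j

theorem totU_contDiff {N : ℕ} (M : Fin N → Move) (hM : ∀ k, (M k).Valid) :
    ContDiff ℝ ∞ (totU M) :=
  contDiff_sum_tens _ _ fun s i => (effFun_totF M hM s i).smooth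

theorem totU_effective {N : ℕ} (M : Fin N → Move) (hM : ∀ k, (M k).Valid) : Effective (totU M) :=
  effective_sum_tens _ _ (effFun_totF M hM)

/-- All functions in a move are supported in a bounded set. -/
theorem Move.exists_support_bound (m : Move) (hm : m.Valid) :
    ∃ R : ℝ, (∀ i x, R < |x| → m.fA i x = 0) ∧ (∀ i x, R < |x| → m.fB i x = 0) := by
  have hμ := hm.μ_pos
  have hex : ∀ i : Fin 3, ∃ R : ℝ, ∀ x : ℝ, R < |x| →
      x < (m.l i : ℝ) - m.μ ∨ (m.u i : ℝ) + m.μ < x := by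
    intro i
    refine ⟨|(m.l i : ℝ) - m.μ| + |(m.u i : ℝ) + m.μ|, fun x hx => ?_⟩
    have h1 := abs_nonneg ((m.l i : ℝ) - m.μ)
    have h2 := abs_nonneg ((m.u i : ℝ) + m.μ)
    have h3 := le_abs_self ((m.u i : ℝ) + m.μ)
    have h4 := neg_abs_le ((m.l i : ℝ) - m.μ)
    rcases lt_abs.mp hx with h | h
    · right; linarith
    · left; linarith
  choose R hR using hex
  refine ⟨R 0 + R 1 + R 2 + |R 0| + |R 1| + |R 2|, ?_⟩
  have hbound : ∀ i : Fin 3, R i ≤ R 0 + R 1 + R 2 + |R 0| + |R 1| + |R 2| := by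
    intro i
    have a0 := neg_abs_le (R 0)
    have a1 := neg_abs_le (R 1)
    have a2 := neg_abs_le (R 2)
    have b0 := abs_nonneg (R 0)
    have b1 := abs_nonneg (R 1)
    have b2 := abs_nonneg (R 2)
    have c0 := le_abs_self (R 0)
    have c1 := le_abs_self (R 1)
    have c2 := le_abs_self (R 2)
    fin_cases i <;> simp <;> linarith
  have hout : ∀ i x, R 0 + R 1 + R 2 + |R 0| + |R 1| + |R 2| < |x| →
      x < (m.l i : ℝ) - m.μ ∨ (m.u i : ℝ) + m.μ < x :=
    fun i x hx => hR i x ((hbound i).trans_lt hx)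
  constructor
  · intro i x hx
    have ho := hout i x hx
    by_cases hq : i = m.q
    · subst hq
      simp only [Move.fA, if_true]
      have hg : m.g =ᶠ[nhds x] fun _ => 0 := gfun_eventually_zero hμ ho
      rw [hg.deriv_eq]
      simp
    · simp only [Move.fA, if_neg hq]
      exact (cut_eventually_zero hμ ho).self_of_nhds
  · intro i x hx
    have ho := hout i x hx
    by_cases hq : i = m.q
    · subst hq
      simp only [Move.fB, if_true]
      exact (gfun_eventually_zero hμ ho).self_of_nhds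
    · simp only [Move.fB, if_neg hq]
      by_cases hp : i = m.p
      · simp only [if_pos hp]
        have hb : m.b i =ᶠ[nhds x] fun _ => 0 := cut_eventually_zero hμ ho
        rw [hb.deriv_eq]
        simp
      · simp only [if_neg hp]
        exact (cut_eventually_zero hμ ho).self_of_nhds

theorem totU_hasCompactSupport {N : ℕ} (M : Fin N → Move) (hM : ∀ k, (M k).Valid) :
    HasCompactSupport (totU M) := by
  have h1 : ∀ s : Fin N × Bool, ∀ i : Fin 4, ∃ R : ℝ, ∀ x, R < |x| → totF M s i x = 0 := by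
    intro s i
    have hδ := gridStep_pos (lt_of_le_of_lt (Nat.zero_le _) s.1.2)
    refine Fin.cases ?_ (fun j => ?_) i
    · exact exists_dtauF_bound _ _ hδ
    · obtain ⟨k, b⟩ := s
      obtain ⟨R, hA, hB⟩ := Move.exists_support_bound (M k) (hM k)
      refine ⟨R, fun x hx => ?_⟩
      cases b
      · exact hB j x hx
      · exact hA j x hx
  choose R hR using h1
  obtain ⟨R₀, hR₀⟩ := (Set.finite_range (fun x : (Fin N × Bool) × Fin 4 => R x.1 x.2)).bddAbove
  refine hasCompactSupport_sum_tens _ _ R₀ fun s i x hx => ?_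
  exact hR s i x (lt_of_le_of_lt (hR₀ ⟨(s, i), rfl⟩) hx)

theorem gridT_add {N : ℕ} (k : ℕ) : ((gridT N k : ℚ) : ℝ) + gridStep N = gridT N (k + 1) := by
  simp only [gridT]
  push_cast
  ring

theorem gridT_le {N k : ℕ} (hN : 0 < N) (hk : k < N) : ((gridT N (k + 1) : ℚ) : ℝ) ≤ 3 / 4 := by
  have hN' : (0 : ℝ) < N := by exact_mod_cast hN
  have hk' : ((k : ℝ) + 1) ≤ N := by exact_mod_cast hk
  simp only [gridT, gridStep]
  push_cast
  have : ((k : ℝ) + 1) * (1 / (2 * N)) ≤ N * (1 / (2 * N)) := by gcongr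
  have e : (N : ℝ) * (1 / (2 * N)) = 1 / 2 := by field_simp
  linarith

theorem one_quarter_le_gridT {N : ℕ} (k : ℕ) : (1 / 4 : ℝ) ≤ ((gridT N k : ℚ) : ℝ) := by
  simp only [gridT, gridStep]
  push_cast
  have : (0 : ℝ) ≤ k * (1 / (2 * N)) := by positivity
  linarith

theorem totU_of_time {N : ℕ} (M : Fin N → Move) (p : ℝ × (Fin 3 → ℝ))
    (hp : p.1 ∉ Set.Icc (1 / 4 : ℝ) (3 / 4)) : totU M p = 0 := by
  obtain ⟨t, x⟩ := p
  funext j
  rw [totU_eq]
  refine Finset.sum_eq_zero fun k _ => ?_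
  have hN : 0 < N := lt_of_le_of_lt (Nat.zero_le _) k.2
  rw [dtauF_eq_zero (gridStep_pos hN), zero_mul]
  simp only [Set.mem_Icc, not_and_or, not_le] at hp
  rcases hp with h | h
  · left
    have := one_quarter_le_gridT (N := N) k.1
    linarith
  · right
    rw [gridT_add]
    have := gridT_le (k := k.1) hN k.2
    linarith

theorem totU_of_slice {N : ℕ} (M : Fin N → Move) (k : Fin N) {t : ℝ}
    (h1 : (gridT N k.1 : ℝ) ≤ t) (h2 : t ≤ (gridT N (k.1 + 1) : ℝ)) (x : Fin 3 → ℝ) :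
    totU M (t, x) = fun j => dtauF (gridT N k.1) (gridStep N) t * (M k).V x j := by
  have hN : 0 < N := lt_of_le_of_lt (Nat.zero_le _) k.2
  have hδ : (0 : ℝ) < gridStep N := by exact_mod_cast gridStep_pos hN
  funext j
  rw [totU_eq, Finset.sum_eq_single k]
  · intro s _ hs
    rw [dtauF_eq_zero (gridStep_pos hN), zero_mul]
    rcases lt_or_gt_of_ne (fun h => hs (Fin.ext h) : s.1 ≠ k.1) with hlt | hgt
    · right
      rw [gridT_add]
      have hmono : ((gridT N (s.1 + 1) : ℚ) : ℝ) ≤ gridT N k.1 := by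
        simp only [gridT]
        push_cast
        have : ((s.1 : ℝ) + 1) ≤ k.1 := by exact_mod_cast hlt
        have hδ' : (0 : ℝ) ≤ ((gridStep N : ℚ) : ℝ) := hδ.le
        nlinarith
      linarith
    · left
      have hmono : ((gridT N (k.1 + 1) : ℚ) : ℝ) ≤ gridT N s.1 := by
        simp only [gridT]
        push_cast
        have : ((k.1 : ℝ) + 1) ≤ s.1 := by exact_mod_cast hgt
        have hδ' : (0 : ℝ) ≤ ((gridStep N : ℚ) : ℝ) := hδ.le
        nlinarith
      linarith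
  · simp

theorem direction_succ (j : Fin 3) : direction j.succ = ((0 : ℝ), (Pi.single j 1 : Fin 3 → ℝ)) := by
  simp [direction, Fin.succ_ne_zero]

theorem dtuple_single (d : Fin 4) (f : Fin 4 → ℝ → ℝ) :
    dtuple [d] f = Function.update f d (_root_.deriv (f d)) := by
  rw [dtuple_cons, dtuple_nil]

theorem totU_spaceDiv {N : ℕ} (M : Fin N → Move) (hM : ∀ k, (M k).Valid)
    (p : ℝ × (Fin 3 → ℝ)) : spaceDiv (totU M) p = 0 := by
  have hsm : ∀ s i, ContDiff ℝ ∞ (totF M s i) := fun s i => (effFun_totF M hM s i).smooth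
  have hmd := fun j : Fin 3 => mixedDeriv_sum_tens (totF M) (fun s j => (totC M s j : ℝ)) hsm [j.succ]
  have e1 : ∀ j : Fin 3, fderiv ℝ (totU M) p (0, Pi.single j 1) j
      = ∑ s, tens (dtuple [j.succ] (totF M s)) p * (totC M s j : ℝ) := by
    intro j
    have := congrFun (congrFun (hmd j) p) j
    simp only [mixedDeriv] at this
    rw [direction_succ] at this
    exact this
  unfold spaceDiv
  rw [Finset.sum_congr rfl (fun j _ => e1 j), Finset.sum_comm, Fintype.sum_prod_type]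
  refine Finset.sum_eq_zero fun k _ => ?_
  rw [Fintype.sum_bool]
  have hv := hM k
  set m := M k with hm
  have hA : ∑ j : Fin 3, tens (dtuple [j.succ] (totF M (k, true))) p * (totC M (k, true) j : ℝ)
      = tens (dtuple [m.p.succ] (totF M (k, true))) p := by
    rw [Finset.sum_eq_single m.p]
    · simp [totC, hm]
    · intro j _ hj
      simp [totC, hm.symm, hj]
    · simp
  have hB : ∑ j : Fin 3, tens (dtuple [j.succ] (totF M (k, false))) p * (totC M (k, false) j : ℝ)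
      = - tens (dtuple [m.q.succ] (totF M (k, false))) p := by
    rw [Finset.sum_eq_single m.q]
    · simp [totC, hm]
    · intro j _ hj
      simp [totC, hm.symm, hj]
    · simp
  rw [hA, hB]
  have key : dtuple [m.p.succ] (totF M (k, true)) = dtuple [m.q.succ] (totF M (k, false)) := by
    rw [dtuple_single, dtuple_single]
    funext i
    refine Fin.cases ?_ (fun j => ?_) i
    · rw [Function.update_of_ne (Fin.succ_ne_zero _).symm,
        Function.update_of_ne (Fin.succ_ne_zero _).symm]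
      simp [totF]
    · by_cases hjp : j = m.p
      · subst hjp
        rw [Function.update_self, Function.update_of_ne
          (fun h => hv.ne (Fin.succ_injective _ h))]
        simp only [totF, tup_succ, if_true, Bool.false_eq_true, if_false, ← hm]
        simp only [Move.fA, Move.fB, if_neg hv.ne, if_true]
      · by_cases hjq : j = m.q
        · subst hjq
          rw [Function.update_self, Function.update_of_ne
            (fun h => hv.ne (Fin.succ_injective _ h).symm)]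
          simp only [totF, tup_succ, if_true, Bool.false_eq_true, if_false, ← hm]
          simp only [Move.fA, Move.fB, if_true]
        · rw [Function.update_of_ne (fun h => hjp (Fin.succ_injective _ h)),
            Function.update_of_ne (fun h => hjq (Fin.succ_injective _ h))]
          simp only [totF, tup_succ, if_true, Bool.false_eq_true, if_false, ← hm]
          simp only [Move.fA, Move.fB, if_neg hjq, if_neg hjp]
  rw [key]
  ring

end Crest.Agent.Lib.BoxFlow
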