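import Crest.Agent.Lib.BoxFlow.Field

set_option autoImplicit false

/-!
Global flows of smooth compactly supported fields, and the flow of the field attached to a list of
moves.
-/

namespace Crest.Agent.Lib.BoxFlow

open scoped ContDiff NNReal Topology
open Crest.AnalysisR.BoxFlow Set

section Generic

variable {U : Field}

theorem exists_field_lipschitz (hU : ContDiff ℝ ∞ U) (hc : HasCompactSupport U) :
    ∃ K : ℝ≥0, ∀ t, LipschitzWith K (fun x => U (t, x)) := by
  have hcf : HasCompactSupport (fderiv ℝ U) := hc.fderiv (𝕜 := ℝ)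
  have hcont : Continuous (fderiv ℝ U) := hU.continuous_fderiv (by simp)
  obtain ⟨C, hC⟩ := hcf.exists_bound_of_continuous hcont
  have hC0 : 0 ≤ C := (norm_nonneg _).trans (hC (0, 0))
  have hdiff : Differentiable ℝ U := hU.differentiable (by simp)
  have hlip : LipschitzWith ⟨C, hC0⟩ U := by
    refine lipschitzWith_of_nnnorm_fderiv_le hdiff fun p => ?_
    rw [← NNReal.coe_le_coe]
    exact hC p
  refine ⟨⟨C, hC0⟩, fun t => ?_⟩
  refine LipschitzWith.of_dist_le_mul fun x y => ?_
  have := hlip.dist_le_mul (t, x) (t, y)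
  simpa [Prod.dist_eq] using this

theorem exists_field_bound (hU : ContDiff ℝ ∞ U) (hc : HasCompactSupport U) :
    ∃ L : ℝ≥0, ∀ p, ‖U p‖ ≤ L := by
  obtain ⟨C, hC⟩ := hc.exists_bound_of_continuous hU.continuous
  have hC0 : 0 ≤ C := (norm_nonneg _).trans (hC (0, 0))
  exact ⟨⟨C, hC0⟩, hC⟩

theorem field_zero_of_time (hU : ContDiff ℝ ∞ U)
    (ht : ∀ p : ℝ × (Fin 3 → ℝ), p.1 ∉ Icc (1 / 4 : ℝ) (3 / 4) → U p = 0) (y : Fin 3 → ℝ) :
    U (3 / 4, y) = 0 := by
  have hcl : IsClosed {t : ℝ | U (t, y) = 0} :=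
    isClosed_eq (hU.continuous.comp (continuous_id.prodMk continuous_const)) continuous_const
  have hsub : Ioi (3 / 4 : ℝ) ⊆ {t : ℝ | U (t, y) = 0} := by
    intro t ht'
    exact ht (t, y) (fun h => absurd h.2 (not_le.mpr ht'))
  have := closure_minimal hsub hcl
  rw [closure_Ioi] at this
  exact this (mem_Ici.mpr le_rfl)

theorem exists_flow (hU : ContDiff ℝ ∞ U) (hc : HasCompactSupport U)
    (ht : ∀ p : ℝ × (Fin 3 → ℝ), p.1 ∉ Icc (1 / 4 : ℝ) (3 / 4) → U p = 0) :
    ∃ Φ, IsFlow U Φ := by
  obtain ⟨K, hK⟩ := exists_field_lipschitz hU hc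
  obtain ⟨L, hL⟩ := exists_field_bound hU hc
  have h0mem : (0 : ℝ) ∈ Icc (0 : ℝ) 1 := ⟨le_rfl, zero_le_one⟩
  have hPL : ∀ x : Fin 3 → ℝ, IsPicardLindelof (fun t y => U (t, y)) (tmin := 0) (tmax := 1)
      ⟨0, h0mem⟩ x L 0 L K := by
    intro x
    refine ⟨fun t _ => (hK t).lipschitzOnWith, fun y _ => ?_, fun t _ y _ => hL _, ?_⟩
    · exact (hU.continuous.comp (continuous_id.prodMk continuous_const)).continuousOn
    · simp
  have hex := fun x => (hPL x).exists_eq_forall_mem_Icc_hasDerivWithinAt₀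
  choose α hα0 hαd using hex
  have hα0' : ∀ x, α x 0 = x := hα0
  -- constancy on the initial interval
  have hcontα : ∀ x, ContinuousOn (α x) (Icc 0 1) := fun x t ht' =>
    (hαd x t ht').continuousWithinAt
  have hmem : ∀ s : ℝ, s ∈ Ico (0 : ℝ) 1 → Icc (0 : ℝ) 1 ∈ 𝓝[≥] s := fun s hs =>
    Icc_mem_nhdsGE_of_mem hs
  have hright : ∀ x s, s ∈ Ico (0 : ℝ) 1 → HasDerivWithinAt (α x) (U (s, α x s)) (Ici s) s :=
    fun x s hs => (hαd x s ⟨hs.1, hs.2.le⟩).mono_of_mem_nhdsWithin (hmem s hs)
  have hinit : ∀ x s, s ∈ Icc (0 : ℝ) (1 / 4) → α x s = x := by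
    intro x s hs
    have h := constant_of_has_deriv_right_zero (f := α x) (a := 0) (b := 1 / 4)
      ((hcontα x).mono (Icc_subset_Icc le_rfl (by norm_num))) ?_ s hs
    · rw [h, hα0']
    · intro r hr
      have hr' : r ∈ Ico (0 : ℝ) 1 := ⟨hr.1, hr.2.trans (by norm_num)⟩
      have hz : U (r, α x r) = 0 := ht _ (fun h' => absurd h'.1 (not_le.mpr hr.2))
      have := hright x r hr'
      rwa [hz] at this
  have hfin : ∀ x s, s ∈ Icc (3 / 4 : ℝ) 1 → α x s = α x (3 / 4) := by
    intro x s hs
    refine constant_of_has_deriv_right_zero (f := α x) (a := 3 / 4) (b := 1)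
      ((hcontα x).mono (Icc_subset_Icc (by norm_num) le_rfl)) ?_ s hs
    intro r hr
    have hr' : r ∈ Ico (0 : ℝ) 1 := ⟨by linarith [hr.1], hr.2⟩
    have hz : U (r, α x r) = 0 := by
      rcases eq_or_lt_of_le hr.1 with h | h
      · rw [← h]
        exact field_zero_of_time hU ht _
      · exact ht _ (fun h' => absurd h'.2 (not_le.mpr h))
    have := hright x r hr'
    rwa [hz] at this
  refine ⟨fun t x => α x (max 0 (min t 1)), fun x => ?_, fun t x => ?_⟩
  · simp [hα0']
  · by_cases h1 : t < 1 / 4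
    · -- constant near `t`
      have hconst : ∀ s : ℝ, s < 1 / 4 → α x (max 0 (min s 1)) = x := by
        intro s hs
        apply hinit
        constructor
        · exact le_max_left _ _
        · apply max_le (by norm_num)
          exact (min_le_left _ _).trans hs.le
      have hz : U (t, α x (max 0 (min t 1))) = 0 :=
        ht _ (fun h' => absurd h'.1 (not_le.mpr h1))
      simp only
      rw [hz]
      have hev : (fun s => α x (max 0 (min s 1))) =ᶠ[𝓝 t] fun _ => x := by
        filter_upwards [Iio_mem_nhds h1] with s hs using hconst s hs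
      exact (hasDerivAt_const t x).congr_of_eventuallyEq hev
    · by_cases h2 : 3 / 4 < t
      · have hconst : ∀ s : ℝ, 3 / 4 < s → α x (max 0 (min s 1)) = α x (3 / 4) := by
          intro s hs
          apply hfin
          constructor
          · refine le_trans ?_ (le_max_right _ _)
            exact le_min hs.le (by norm_num)
          · exact max_le zero_le_one (min_le_right _ _)
        have hz : U (t, α x (max 0 (min t 1))) = 0 :=
          ht _ (fun h' => absurd h'.2 (not_le.mpr h2))
        simp only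
        rw [hz]
        have hev : (fun s => α x (max 0 (min s 1))) =ᶠ[𝓝 t] fun _ => α x (3 / 4) := by
          filter_upwards [Ioi_mem_nhds h2] with s hs using hconst s hs
        exact (hasDerivAt_const t _).congr_of_eventuallyEq hev
      · have h1' : 1 / 4 ≤ t := not_lt.mp h1
        have h2' : t ≤ 3 / 4 := not_lt.mp h2
        have hclamp : ∀ s : ℝ, s ∈ Ioo (0 : ℝ) 1 → max 0 (min s 1) = s := by
          intro s hs
          rw [min_eq_left hs.2.le, max_eq_right hs.1.le]
        have htm : t ∈ Ioo (0 : ℝ) 1 := ⟨by linarith, by linarith⟩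
        have hev : (fun s => α x (max 0 (min s 1))) =ᶠ[𝓝 t] α x := by
          filter_upwards [Ioo_mem_nhds htm.1 htm.2] with s hs
          rw [hclamp s hs]
        have hd := (hαd x t (Ioo_subset_Icc_self htm)).hasDerivAt (Icc_mem_nhds htm.1 htm.2)
        simp only
        rw [hclamp t htm]
        exact hd.congr_of_eventuallyEq hev

theorem flow_eq_of_solution (hU : ContDiff ℝ ∞ U) (hc : HasCompactSupport U) {Φ : ℝ → (Fin 3 → ℝ) → (Fin 3 → ℝ)}
    (hΦ : IsFlow U Φ) (x : Fin 3 → ℝ) {a b : ℝ} (hab : a ≤ b) (c : ℝ → (Fin 3 → ℝ))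
    (hcont : ContinuousOn c (Icc a b))
    (hc' : ∀ t ∈ Ico a b, HasDerivWithinAt c (U (t, c t)) (Ici t) t) (h0 : c a = Φ a x) :
    c b = Φ b x := by
  obtain ⟨K, hK⟩ := exists_field_lipschitz hU hc
  have hd : ∀ t, HasDerivAt (fun s => Φ s x) (U (t, Φ t x)) t := fun t => hΦ.2 t x
  have := ODE_solution_unique_of_mem_Icc_right (v := fun t y => U (t, y)) (s := fun _ => univ)
    (K := K) (f := c) (g := fun s => Φ s x) (a := a) (b := b)
    (fun t _ => (hK t).lipschitzOnWith) hcont hc' (fun _ _ => mem_univ _)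
    (fun t _ => (hd t).continuousAt.continuousWithinAt)
    (fun t _ => (hd t).hasDerivWithinAt) (fun _ _ => mem_univ _) h0
  exact this (right_mem_Icc.mpr hab)

/-- If the field vanishes along a constant curve for `t ∈ [a,b)` then the flow stays. -/
theorem flow_const (hU : ContDiff ℝ ∞ U) (hc : HasCompactSupport U)
    {Φ : ℝ → (Fin 3 → ℝ) → (Fin 3 → ℝ)} (hΦ : IsFlow U Φ) (x : Fin 3 → ℝ) {a b : ℝ} (hab : a ≤ b)
    (hz : ∀ t ∈ Ico a b, U (t, Φ a x) = 0) : Φ b x = Φ a x := by
  have := flow_eq_of_solution hU hc hΦ x hab (fun _ => Φ a x) continuousOn_const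
    (fun t ht => by
      rw [hz t ht]
      exact hasDerivWithinAt_const _ _ _) rfl
  exact this.symm

end Generic

/-! ### The field of a list of moves -/

/-- The action of the move at the end of its time slice. -/
noncomputable def Move.apply (m : Move) (y : Fin 3 → ℝ) : Fin 3 → ℝ :=
  Function.update y m.p (y m.p + (m.α + m.γ * y m.q))

/-- What the flow does to a point during the time slice of a move. -/
def Step (m : Move) (y y' : Fin 3 → ℝ) : Prop :=
  (m.Act y ∧ m.Act (m.apply y) ∧ y' = m.apply y) ∨ (¬ m.Supp y ∧ y' = y)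

/-- Runs through a list of moves. -/
def Run : List Move → (Fin 3 → ℝ) → (Fin 3 → ℝ) → Prop
  | [], x, y => x = y
  | m :: L, x, z => ∃ y, Step m x y ∧ Run L y z

theorem tauF_mem_Icc (t₀ δ : ℚ) (t : ℝ) : 0 ≤ tauF t₀ δ t ∧ tauF t₀ δ t ≤ 1 :=
  ⟨st_nonneg _, st_le_one _⟩

theorem slice_step {N : ℕ} (M : Fin N → Move) (hM : ∀ k, (M k).Valid) {Φ : ℝ → (Fin 3 → ℝ) → (Fin 3 → ℝ)}
    (hΦ : IsFlow (totU M) Φ) (x : Fin 3 → ℝ) (k : Fin N) {y y' : Fin 3 → ℝ}
    (h0 : Φ (gridT N k.1 : ℝ) x = y) (hs : Step (M k) y y') :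
    Φ (gridT N (k.1 + 1) : ℝ) x = y' := by
  have hN : 0 < N := lt_of_le_of_lt (Nat.zero_le _) k.2
  have hδ := gridStep_pos hN
  have hδ' : (0 : ℝ) < gridStep N := by exact_mod_cast hδ
  have hU := totU_contDiff M hM
  have hc := totU_hasCompactSupport M hM
  have hab : (gridT N k.1 : ℝ) ≤ (gridT N (k.1 + 1) : ℝ) := by
    rw [← gridT_add]
    linarith
  have hm := hM k
  set m := M k with hmdef
  rcases hs with ⟨h1, h2, rfl⟩ | ⟨h1, rfl⟩
  · -- the explicit solution
    set c : ℝ → (Fin 3 → ℝ) := fun t => Function.update y m.p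
      (y m.p + tauF (gridT N k.1) (gridStep N) t * (m.α + m.γ * y m.q)) with hcdef
    have hcq : ∀ t, c t m.q = y m.q := by
      intro t
      simp only [hcdef]
      rw [Function.update_of_ne hm.ne.symm]
    have hact : ∀ t, m.Act (c t) := by
      intro t i
      obtain ⟨hτ0, hτ1⟩ := tauF_mem_Icc (gridT N k.1) (gridStep N) t
      by_cases hi : i = m.p
      · subst hi
        simp only [hcdef, Function.update_self]
        have a1 := h1 m.p
        have a2 := h2 m.p
        simp only [Move.apply, Function.update_self] at a2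
        set τ := tauF (gridT N k.1) (gridStep N) t
        set d : ℝ := (m.α + m.γ * y m.q)
        constructor
        · nlinarith [mul_nonneg hτ0 (sub_pos.mpr a1.1).le, mul_nonneg (sub_nonneg.mpr hτ1) (sub_pos.mpr a1.1).le,
            mul_nonneg hτ0 (sub_pos.mpr a2.1).le, mul_nonneg (sub_nonneg.mpr hτ1) (sub_pos.mpr a2.1).le,
            a1.1, a2.1]
        · nlinarith [mul_nonneg hτ0 (sub_pos.mpr a1.2).le, mul_nonneg (sub_nonneg.mpr hτ1) (sub_pos.mpr a1.2).le,
            mul_nonneg hτ0 (sub_pos.mpr a2.2).le, mul_nonneg (sub_nonneg.mpr hτ1) (sub_pos.mpr a2.2).le,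
            a1.2, a2.2]
      · simp only [hcdef]
        rw [Function.update_of_ne hi]
        exact h1 i
    have hderiv : ∀ t, HasDerivAt c
        (fun j => dtauF (gridT N k.1) (gridStep N) t * (if j = m.p then (m.α : ℝ) + m.γ * y m.q else 0)) t := by
      intro t
      rw [hasDerivAt_pi]
      intro j
      by_cases hj : j = m.p
      · subst hj
        simp only [hcdef, Function.update_self, if_true]
        exact ((hasDerivAt_tauF _ _ t).mul_const _).const_add _
      · have e : (fun t => c t j) = fun _ => y j := by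
          funext s
          simp only [hcdef]
          rw [Function.update_of_ne hj]
        simp only [if_neg hj, mul_zero]
        rw [e]
        exact hasDerivAt_const _ _
    have hc0 : c (gridT N k.1 : ℝ) = y := by
      simp only [hcdef]
      rw [tauF_eq_zero hδ le_rfl, zero_mul, add_zero, Function.update_eq_self]
    have hc1 : c (gridT N (k.1 + 1) : ℝ) = m.apply y := by
      simp only [hcdef]
      rw [tauF_eq_one hδ (le_of_eq (gridT_add k.1)), one_mul]
      rfl
    have := flow_eq_of_solution hU hc hΦ x hab c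
      (fun t _ => (hderiv t).continuousAt.continuousWithinAt)
      (fun t ht => ?_) (by rw [hc0, h0])
    · rw [← hc1, this]
    · rw [totU_of_slice M k ht.1 ht.2.le, ← hmdef, Move.V_of_act hm (hact t)]
      have := (hderiv t).hasDerivWithinAt (s := Ici t)
      refine this.congr_deriv ?_
      funext j
      rw [hcq]
  · rw [← h0]
    apply flow_const hU hc hΦ x hab
    intro t ht
    rw [totU_of_slice M k ht.1 ht.2.le, ← hmdef, h0, Move.V_of_not_supp hm h1]
    funext j
    simp

theorem run_flow (L : List Move) (hL : ∀ m ∈ L, m.Valid) {Φ : ℝ → (Fin 3 → ℝ) → (Fin 3 → ℝ)}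
    (hΦ : IsFlow (totU fun k : Fin L.length => L[k]) Φ) (x : Fin 3 → ℝ) :
    ∀ (L' : List Move) (k : ℕ) (y z : Fin 3 → ℝ), L.drop k = L' → k ≤ L.length →
      Φ (gridT L.length k : ℝ) x = y → Run L' y z → Φ (gridT L.length L.length : ℝ) x = z := by
  have hM : ∀ k : Fin L.length, (L[k]).Valid := fun k => hL _ (List.getElem_mem _)
  intro L'
  induction L' with
  | nil =>
    intro k y z hd hk h0 hr
    have hk' : L.length ≤ k := List.drop_eq_nil_iff.mp hd
    have : k = L.length := le_antisymm hk hk'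
    subst this
    have hr' : y = z := hr
    rw [h0, hr']
  | cons m L'' ih =>
    intro k y z hd hk h0 hr
    obtain ⟨y', hs, hr'⟩ := hr
    have hklt : k < L.length := by
      by_contra hcon
      have := List.drop_eq_nil_iff.mpr (not_lt.mp hcon)
      rw [this] at hd
      cases hd
    have hd' := List.drop_eq_getElem_cons hklt
    rw [hd] at hd'
    have hh := List.cons.inj hd'
    have hmk : m = L[k] := hh.1
    have hdrop : L.drop (k + 1) = L'' := hh.2.symm
    have hstep := slice_step (fun k : Fin L.length => L[k]) hM hΦ x ⟨k, hklt⟩ h0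
      (by
        show Step L[k] y y'
        rw [← hmk]
        exact hs)
    exact ih (k + 1) y' z hdrop hklt hstep hr'

/-- The main result about lists of moves. -/
theorem exists_field_of_moves (L : List Move) (hL : ∀ m ∈ L, m.Valid) :
    ∃ (U : Field) (Φ : ℝ → (Fin 3 → ℝ) → (Fin 3 → ℝ)),
      ContDiff ℝ ∞ U ∧ HasCompactSupport U ∧ Effective U ∧
      (∀ p : ℝ × (Fin 3 → ℝ), p.1 ∉ Set.Icc (1 / 4 : ℝ) (3 / 4) → U p = 0) ∧
      (∀ p : ℝ × (Fin 3 → ℝ), spaceDiv U p = 0) ∧ IsFlow U Φ ∧
      ∀ x z, Run L x z → Φ 1 x = z := by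
  have hM : ∀ k : Fin L.length, (L[k]).Valid := fun k => hL _ (List.getElem_mem _)
  set M : Fin L.length → Move := fun k => L[k] with hMdef
  have hU := totU_contDiff M hM
  have hc := totU_hasCompactSupport M hM
  have ht := totU_of_time M
  obtain ⟨Φ, hΦ⟩ := exists_flow hU hc ht
  refine ⟨totU M, Φ, hU, hc, totU_effective M hM, ht, totU_spaceDiv M hM, hΦ, fun x z hr => ?_⟩
  -- start of the motion
  have h14 : (gridT L.length 0 : ℝ) = 1 / 4 := by
    simp [gridT]
  have hstart : Φ (gridT L.length 0 : ℝ) x = x := by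
    rw [h14]
    have := flow_const hU hc hΦ x (a := 0) (b := 1 / 4) (by norm_num) (fun t ht' => ht _ (fun h => by
      exact absurd h.1 (not_le.mpr ht'.2)))
    rw [this, hΦ.1]
  have hrun := run_flow L hL hΦ x L 0 x z (List.drop_zero) (Nat.zero_le _) hstart hr
  -- end of the motion
  have hle : (gridT L.length L.length : ℝ) ≤ 1 := by
    simp only [gridT, gridStep]
    push_cast
    by_cases h0 : L.length = 0
    · simp [h0]
      norm_num
    · have hpos : (0 : ℝ) < L.length := by exact_mod_cast Nat.pos_of_ne_zero h0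
      have : (L.length : ℝ) * (1 / (2 * L.length)) = 1 / 2 := by field_simp
      rw [this]
      norm_num
  have hend := flow_const hU hc hΦ x hle (fun t ht' => by
    funext j
    rw [totU_eq]
    refine Finset.sum_eq_zero fun k _ => ?_
    have hN : 0 < L.length := lt_of_le_of_lt (Nat.zero_le _) k.2
    rw [dtauF_eq_zero (gridStep_pos hN), zero_mul]
    right
    rw [gridT_add]
    refine le_trans ?_ ht'.1
    simp only [gridT]
    push_cast
    have : ((k.1 : ℝ) + 1) ≤ L.length := by exact_mod_cast k.2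
    have hδ : (0 : ℝ) ≤ ((gridStep L.length : ℚ) : ℝ) := by
      exact_mod_cast (gridStep_pos hN).le
    nlinarith)
  rw [hend, hrun]

end Crest.Agent.Lib.BoxFlow
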