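import Crest.Agent.Lib.BoxFlow.Flow

set_option autoImplicit false

/-!
Combinatorics of runs, and moving a family of well separated boxes to parking positions.
-/

namespace Crest.Agent.Lib.BoxFlow

/-! ### Runs -/

theorem run_nil (x : Fin 3 → ℝ) : Run [] x x := rfl

theorem run_append {L₁ L₂ : List Move} {x y z : Fin 3 → ℝ} (h₁ : Run L₁ x y) (h₂ : Run L₂ y z) :
    Run (L₁ ++ L₂) x z := by
  induction L₁ generalizing x with
  | nil =>
    have : x = y := h₁
    subst this
    exact h₂
  | cons m L ih =>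
    obtain ⟨w, hs, hr⟩ := h₁
    exact ⟨w, hs, ih hr⟩

theorem run_cons_stay {m : Move} {L : List Move} {y z : Fin 3 → ℝ} (h : ¬ m.Supp y) (hr : Run L y z) :
    Run (m :: L) y z := ⟨y, Or.inr ⟨h, rfl⟩, hr⟩

theorem run_cons_move {m : Move} {L : List Move} {y y' z : Fin 3 → ℝ} (hA : m.Act y)
    (happ : m.apply y = y') (hA' : m.Act y') (hr : Run L y' z) : Run (m :: L) y z :=
  ⟨y', Or.inl ⟨hA, happ ▸ hA', happ.symm⟩, hr⟩

theorem run_stay {L : List Move} {y : Fin 3 → ℝ} (h : ∀ m ∈ L, ¬ m.Supp y) : Run L y y := by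
  induction L with
  | nil => rfl
  | cons m L ih =>
    exact run_cons_stay (h m (by simp)) (ih fun m' hm' => h m' (List.mem_cons_of_mem _ hm'))

theorem run_flatMap_stay {ι : Type*} (l : List ι) (f : ι → List Move) (y : Fin 3 → ℝ)
    (h : ∀ i ∈ l, Run (f i) y y) : Run (l.flatMap f) y y := by
  induction l with
  | nil => rfl
  | cons i l ih =>
    rw [List.flatMap_cons]
    exact run_append (h i (by simp)) (ih fun i' hi' => h i' (List.mem_cons_of_mem _ hi'))

theorem run_flatMap_split {ι : Type*} (A₁ A₂ : List ι) (i : ι) (f : ι → List Move)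
    {y y' : Fin 3 → ℝ} (h₁ : ∀ i' ∈ A₁, Run (f i') y y) (h : Run (f i) y y')
    (h₂ : ∀ i' ∈ A₂, Run (f i') y' y') : Run ((A₁ ++ i :: A₂).flatMap f) y y' := by
  rw [List.flatMap_append, List.flatMap_cons]
  exact run_append (run_flatMap_stay A₁ f y h₁) (run_append h (run_flatMap_stay A₂ f y' h₂))

/-- The inverse move. -/
def Move.inv (m : Move) : Move := { m with α := -m.α, γ := -m.γ }

theorem Move.inv_apply {m : Move} (hne : m.p ≠ m.q) (y : Fin 3 → ℝ) :
    m.inv.apply (m.apply y) = y := by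
  funext j
  by_cases hj : j = m.p
  · subst hj
    simp only [Move.apply, Move.inv, Function.update_self]
    rw [Function.update_of_ne hne.symm]
    push_cast
    ring
  · simp only [Move.apply, Move.inv]
    rw [Function.update_of_ne hj, Function.update_of_ne hj]

theorem step_inv {m : Move} (hne : m.p ≠ m.q) {y y' : Fin 3 → ℝ} (h : Step m y y') :
    Step m.inv y' y := by
  rcases h with ⟨h1, h2, rfl⟩ | ⟨h1, rfl⟩
  · exact Or.inl ⟨h2, by rw [Move.inv_apply hne]; exact h1, (Move.inv_apply hne y).symm⟩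
  · exact Or.inr ⟨h1, rfl⟩

theorem run_reverse {L : List Move} (hL : ∀ m ∈ L, m.p ≠ m.q) {x y : Fin 3 → ℝ} (h : Run L x y) :
    Run (L.reverse.map Move.inv) y x := by
  induction L generalizing x with
  | nil =>
    have : x = y := h
    subst this
    rfl
  | cons m L ih =>
    obtain ⟨w, hs, hr⟩ := h
    have h1 := ih (fun m' hm' => hL m' (List.mem_cons_of_mem _ hm')) hr
    rw [List.reverse_cons, List.map_append]
    refine run_append h1 ?_
    exact ⟨x, step_inv (hL m (by simp)) hs, rfl⟩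

/-! ### Sorting -/

theorem exists_sorted_order {n : ℕ} (f : Fin n → ℚ) :
    ∃ ord : List (Fin n), ord.Nodup ∧ (∀ i, i ∈ ord) ∧ ord.Pairwise (fun i i' => f i' ≤ f i) := by
  let r : Fin n → Fin n → Prop := fun i i' => f i' ≤ f i
  have : DecidableRel r := fun i i' => inferInstanceAs (Decidable (f i' ≤ f i))
  have : Std.Total r := ⟨fun i i' => le_total (f i') (f i)⟩
  have : IsTrans (Fin n) r := ⟨fun _ _ _ h₁ h₂ => le_trans h₂ h₁⟩
  refine ⟨(List.finRange n).insertionSort r, ?_, ?_, List.pairwise_insertionSort r _⟩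
  · exact ((List.perm_insertionSort r _).nodup_iff).mpr (List.nodup_finRange n)
  · intro i
    exact (List.mem_insertionSort r).mpr (List.mem_finRange i)

/-! ### Parking a family of boxes -/

section Phase1

variable {n : ℕ} (c w : Fin n → Fin 3 → ℚ) (S : Fin n → ℚ) (P μ : ℚ)

/-- Translation in the `0` direction to the private slab. -/
def X1 (i : Fin n) : Move where
  p := 0
  q := 1
  α := S i - c i 0
  γ := 0
  l := ![c i 0 - w i 0, c i 1 - w i 1, c i 2 - w i 2]
  u := ![S i + w i 0, c i 1 + w i 1, c i 2 + w i 2]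
  μ := μ

/-- Translation in the `1` direction to the common parking height. -/
def X2 (i : Fin n) : Move where
  p := 1
  q := 0
  α := P - c i 1
  γ := 0
  l := ![S i - w i 0, c i 1 - w i 1, c i 2 - w i 2]
  u := ![S i + w i 0, P + w i 1, c i 2 + w i 2]
  μ := μ

/-- The moves of one box. -/
def parkMoves (i : Fin n) : List Move := [X1 c w S μ i, X2 c w S P μ i]

/-- The parking position of a point. -/
noncomputable def park (i : Fin n) (z : Fin 3 → ℝ) : Fin 3 → ℝ :=
  ![z 0 + ((S i : ℝ) - c i 0), z 1 + ((P : ℝ) - c i 1), z 2]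

/-- Being in the enlarged box. -/
def Zbox (c w : Fin 3 → ℚ) (z : Fin 3 → ℝ) : Prop := ∀ j, |z j - (c j : ℝ)| < (w j : ℝ)

variable {c w S P μ}

theorem parkMoves_valid (hw : ∀ i j, 0 < w i j) (hμ : 0 < μ) (hS : ∀ i, c i 0 ≤ S i)
    (hP : ∀ i, c i 1 ≤ P) (i : Fin n) : ∀ m ∈ parkMoves c w S P μ i, m.Valid := by
  intro m hm
  simp only [parkMoves, List.mem_cons, List.not_mem_nil, or_false] at hm
  have h0 := hw i 0
  have h1 := hw i 1
  have h2 := hw i 2
  have hS' := hS i
  have hP' := hP i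
  rcases hm with rfl | rfl
  · refine ⟨(by decide : (0 : Fin 3) ≠ 1), hμ, fun j => ?_⟩
    fin_cases j <;> simp [X1] <;> linarith
  · refine ⟨(by decide : (1 : Fin 3) ≠ 0), hμ, fun j => ?_⟩
    fin_cases j <;> simp [X2] <;> linarith

theorem abs_lt_cast {z c w : ℝ} (h : |z - c| < w) : c - w < z ∧ z < c + w := by
  rw [abs_lt] at h
  constructor <;> linarith [h.1, h.2]

/-- A box runs to its parking position through its own moves. -/
theorem run_own (hS : ∀ i, c i 0 ≤ S i) (hP : ∀ i, c i 1 ≤ P) (i : Fin n) {z : Fin 3 → ℝ}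
    (hz : Zbox (c i) (w i) z) : Run (parkMoves c w S P μ i) z (park c S P i z) := by
  have h0 := abs_lt_cast (hz 0)
  have h1 := abs_lt_cast (hz 1)
  have h2 := abs_lt_cast (hz 2)
  have hS' : (c i 0 : ℝ) ≤ S i := by exact_mod_cast hS i
  have hP' : (c i 1 : ℝ) ≤ P := by exact_mod_cast hP i
  set y₁ : Fin 3 → ℝ := ![z 0 + ((S i : ℝ) - c i 0), z 1, z 2] with hy₁
  refine run_cons_move (y' := y₁) ?_ ?_ ?_ ?_
  · intro j
    fin_cases j <;> simp [X1] <;> constructor <;> linarith [h0.1, h0.2, h1.1, h1.2, h2.1, h2.2]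
  · funext j
    fin_cases j <;> simp [X1, Move.apply, hy₁, Function.update]
  · intro j
    fin_cases j <;> simp [X1, hy₁] <;> constructor <;> linarith [h0.1, h0.2, h1.1, h1.2, h2.1, h2.2]
  refine run_cons_move (y' := park c S P i z) ?_ ?_ ?_ rfl
  · intro j
    fin_cases j <;> simp [X2, hy₁] <;> constructor <;> linarith [h0.1, h0.2, h1.1, h1.2, h2.1, h2.2]
  · funext j
    fin_cases j <;> simp [X2, Move.apply, hy₁, park, Function.update]
  · intro j
    fin_cases j <;> simp [X2, park] <;> constructor <;> linarith [h0.1, h0.2, h1.1, h1.2, h2.1, h2.2]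

/-- Far away conditions. -/
structure FarCond (c w : Fin n → Fin 3 → ℚ) (S : Fin n → ℚ) (P μ : ℚ) : Prop where
  far₁ : ∀ i i', c i' 0 + w i' 0 + μ ≤ S i - w i 0
  far₂ : ∀ i i', c i' 1 + w i' 1 + μ ≤ P - w i 1
  far₃ : ∀ i i', i ≠ i' → w i 0 + w i' 0 + μ ≤ |S i - S i'|

/-- A box not yet moved does not feel the moves of a box with larger `0`-coordinate. -/
theorem run_before (hF : FarCond c w S P μ) {i i' : Fin n}
    (hsep : ∃ j, w i j + w i' j + 2 * μ < |c i j - c i' j|) (hle : c i 0 ≤ c i' 0) (hμ : 0 < μ)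
    {z : Fin 3 → ℝ} (hz : Zbox (c i) (w i) z) : Run (parkMoves c w S P μ i') z z := by
  have h0 := abs_lt_cast (hz 0)
  have h1 := abs_lt_cast (hz 1)
  have h2 := abs_lt_cast (hz 2)
  have hμ' : (0 : ℝ) < μ := by exact_mod_cast hμ
  have hX1 : ¬ (X1 c w S μ i').Supp z := by
    intro hs
    obtain ⟨j, hj⟩ := hsep
    have s0 := hs 0
    have s1 := hs 1
    have s2 := hs 2
    simp [X1] at s0 s1 s2
    fin_cases j
    · have hj' : (w i 0 + w i' 0 + 2 * μ : ℚ) < c i' 0 - c i 0 := by
        have : |c i 0 - c i' 0| = c i' 0 - c i 0 := by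
          rw [abs_sub_comm, abs_of_nonneg (sub_nonneg.mpr hle)]
        simp at hj
        rwa [this] at hj
      have hj'' : ((w i 0 : ℝ) + w i' 0 + 2 * μ) < c i' 0 - c i 0 := by exact_mod_cast hj'
      linarith [h0.1, h0.2, s0.1]
    · simp at hj
      have hj' : ((w i 1 : ℝ) + w i' 1 + 2 * μ) < |(c i 1 : ℝ) - c i' 1| := by exact_mod_cast hj
      rcases lt_abs.mp hj' with h | h <;> linarith [h1.1, h1.2, s1.1, s1.2]
    · simp at hj
      have hj' : ((w i 2 : ℝ) + w i' 2 + 2 * μ) < |(c i 2 : ℝ) - c i' 2| := by exact_mod_cast hj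
      rcases lt_abs.mp hj' with h | h <;> linarith [h2.1, h2.2, s2.1, s2.2]
  have hX2 : ¬ (X2 c w S P μ i').Supp z := by
    intro hs
    have s0 := hs 0
    simp [X2] at s0
    have hf : (c i 0 : ℝ) + w i 0 + μ ≤ S i' - w i' 0 := by exact_mod_cast hF.far₁ i' i
    linarith [h0.1, h0.2, s0.1]
  exact run_stay (by
    intro m hm
    simp only [parkMoves, List.mem_cons, List.not_mem_nil, or_false] at hm
    rcases hm with rfl | rfl
    · exact hX1
    · exact hX2)

/-- A parked box does not feel the moves of other boxes. -/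
theorem run_after (hF : FarCond c w S P μ) {i i' : Fin n} (hne : i ≠ i') (hμ : 0 < μ)
    {z : Fin 3 → ℝ} (hz : Zbox (c i) (w i) z) :
    Run (parkMoves c w S P μ i') (park c S P i z) (park c S P i z) := by
  have h0 := abs_lt_cast (hz 0)
  have h1 := abs_lt_cast (hz 1)
  have hμ' : (0 : ℝ) < μ := by exact_mod_cast hμ
  have hX1 : ¬ (X1 c w S μ i').Supp (park c S P i z) := by
    intro hs
    have s1 := hs 1
    simp [X1, park] at s1
    have hf : (c i' 1 : ℝ) + w i' 1 + μ ≤ P - w i 1 := by exact_mod_cast hF.far₂ i i'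
    linarith [h1.1, h1.2, s1.2]
  have hX2 : ¬ (X2 c w S P μ i').Supp (park c S P i z) := by
    intro hs
    have s0 := hs 0
    simp [X2, park] at s0
    have hf : ((w i 0 + w i' 0 + μ : ℚ) : ℝ) ≤ ((|S i - S i'| : ℚ) : ℝ) := by
      exact_mod_cast hF.far₃ i i' hne
    push_cast at hf
    rcases le_abs'.mp hf with h | h <;> linarith [h0.1, h0.2, s0.1, s0.2]
  exact run_stay (by
    intro m hm
    simp only [parkMoves, List.mem_cons, List.not_mem_nil, or_false] at hm
    rcases hm with rfl | rfl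
    · exact hX1
    · exact hX2)

/-- **Phase 1**: parking a family of well separated boxes. -/
theorem exists_parking (hw : ∀ i j, 0 < w i j) (hμ : 0 < μ) (hS : ∀ i, c i 0 ≤ S i)
    (hP : ∀ i, c i 1 ≤ P) (hF : FarCond c w S P μ)
    (hsep : ∀ i i', i ≠ i' → ∃ j, w i j + w i' j + 2 * μ < |c i j - c i' j|) :
    ∃ L : List Move, (∀ m ∈ L, m.Valid) ∧
      ∀ i z, Zbox (c i) (w i) z → Run L z (park c S P i z) := by
  obtain ⟨ord, hnd, hall, hsort⟩ := exists_sorted_order (fun i => c i 0)
  refine ⟨ord.flatMap (parkMoves c w S P μ), ?_, fun i z hz => ?_⟩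
  · intro m hm
    obtain ⟨i, _, hi⟩ := List.mem_flatMap.mp hm
    exact parkMoves_valid hw hμ hS hP i m hi
  · obtain ⟨A₁, A₂, hord⟩ := List.append_of_mem (hall i)
    rw [hord]
    rw [hord] at hnd hsort
    have hnd' := List.nodup_middle.mp hnd
    have hi1 : i ∉ A₁ := by
      intro h
      have := (List.nodup_append.mp hnd).2.2 i (by simp [h]) i (by simp)
      exact this rfl
    have hi2 : i ∉ A₂ := (List.nodup_cons.mp (List.nodup_append.mp hnd).2.1).1
    refine run_flatMap_split A₁ A₂ i _ ?_ (run_own hS hP i hz) ?_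
    · intro i' hi'
      have hne : i ≠ i' := fun h => hi1 (h ▸ hi')
      have hle : c i 0 ≤ c i' 0 :=
        (List.pairwise_append.mp hsort).2.2 i' hi' i (by simp)
      exact run_before hF (hsep i i' hne) hle hμ hz
    · intro i' hi'
      have hne : i ≠ i' := fun h => hi2 (h ▸ hi')
      exact run_after hF hne hμ hz

end Phase1

end Crest.Agent.Lib.BoxFlow
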