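import Crest.Agent.Lib.BoxFlow.Plan1

set_option autoImplicit false

/-!
Rescaling parked boxes by rational shears, and the complete plan.
-/

namespace Crest.Agent.Lib.BoxFlow

/-! ### Shears -/

/-- A shear `x_p += g x_q` relative to a centre. -/
abbrev Shear := Fin 3 × Fin 3 × ℚ

/-- The action of a shear in relative coordinates. -/
noncomputable def relApply (r : Fin 3 → ℝ) (t : Shear) : Fin 3 → ℝ :=
  Function.update r t.1 (r t.1 + (t.2.2 : ℝ) * r t.2.1)

/-- A shear about the centre `C`, active in a big cube about `K`. -/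
def shearMove (C K : Fin 3 → ℚ) (W μ : ℚ) (t : Shear) : Move where
  p := t.1
  q := t.2.1
  α := -(t.2.2 * C t.2.1)
  γ := t.2.2
  l := fun j => K j - W
  u := fun j => K j + W
  μ := μ

/-- Growth factor of a list of shears. -/
def growth : List Shear → ℚ
  | [] => 1
  | t :: T => (1 + |t.2.2|) * growth T

theorem one_le_growth (T : List Shear) : 1 ≤ growth T := by
  induction T with
  | nil => simp [growth]
  | cons t T ih =>
    simp only [growth]
    have h := abs_nonneg t.2.2
    nlinarith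

theorem shearMove_apply (C K : Fin 3 → ℚ) (W μ : ℚ) (t : Shear) (r : Fin 3 → ℝ) :
    (shearMove C K W μ t).apply (fun j => (C j : ℝ) + r j)
      = fun j => (C j : ℝ) + relApply r t j := by
  funext j
  by_cases hj : j = t.1
  · subst hj
    simp [Move.apply, shearMove, relApply]
    ring
  · simp only [Move.apply, shearMove, relApply]
    rw [Function.update_of_ne hj, Function.update_of_ne hj]

theorem run_shears (C K : Fin 3 → ℚ) (W μ : ℚ) : ∀ (T : List Shear) (M : ℝ) (r : Fin 3 → ℝ),
    (∀ j, |r j| ≤ M) → (∀ j, |(C j : ℝ) - K j| + M * (growth T : ℝ) < W) →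
    Run (T.map (shearMove C K W μ)) (fun j => (C j : ℝ) + r j)
      (fun j => (C j : ℝ) + (T.foldl relApply r) j) := by
  intro T
  induction T with
  | nil => intro M r _ _; rfl
  | cons t T ih =>
    intro M r hr hW
    have hM : 0 ≤ M := (abs_nonneg _).trans (hr 0)
    have hgT : (1 : ℝ) ≤ (growth T : ℝ) := by exact_mod_cast one_le_growth T
    have hg : (0 : ℝ) ≤ |(t.2.2 : ℝ)| := abs_nonneg _
    set M' : ℝ := (1 + |(t.2.2 : ℝ)|) * M with hM'
    have hM'M : M ≤ M' := by
      rw [hM']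
      nlinarith [mul_nonneg hg hM]
    have hgrow : M * (growth (t :: T) : ℝ) = M' * (growth T : ℝ) := by
      simp only [growth, hM']
      push_cast
      ring
    have hM'0 : 0 ≤ M' := hM.trans hM'M
    have hr' : ∀ j, |relApply r t j| ≤ M' := by
      intro j
      by_cases hj : j = t.1
      · subst hj
        simp only [relApply, Function.update_self]
        calc |r t.1 + (t.2.2 : ℝ) * r t.2.1| ≤ |r t.1| + |(t.2.2 : ℝ) * r t.2.1| := abs_add_le _ _
          _ = |r t.1| + |(t.2.2 : ℝ)| * |r t.2.1| := by rw [abs_mul]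
          _ ≤ M + |(t.2.2 : ℝ)| * M := by
              gcongr
              · exact hr _
              · exact hr _
          _ = M' := by rw [hM']; ring
      · simp only [relApply]
        rw [Function.update_of_ne hj]
        exact (hr j).trans hM'M
    have hW' : ∀ j, |(C j : ℝ) - K j| + M' * (growth T : ℝ) < W := fun j => by
      rw [← hgrow]
      exact hW j
    have hact : ∀ (m : ℝ) (s : Fin 3 → ℝ), (∀ j, |s j| ≤ m) →
        (∀ j, |(C j : ℝ) - K j| + m < W) →
        (shearMove C K W μ t).Act (fun j => (C j : ℝ) + s j) := by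
      intro m s hs hm j
      have h1 := abs_le.mp (hs j)
      have h2 := hm j
      have h3 := le_abs_self ((C j : ℝ) - K j)
      have h4 := neg_abs_le ((C j : ℝ) - K j)
      simp only [shearMove]
      push_cast
      constructor <;> linarith [h1.1, h1.2]
    have hle : ∀ j, |(C j : ℝ) - K j| + M' < W := fun j => by
      have := hW' j
      have h2 : M' ≤ M' * (growth T : ℝ) := by nlinarith
      linarith
    have hle0 : ∀ j, |(C j : ℝ) - K j| + M < W := fun j => by
      have := hle j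
      linarith
    refine run_cons_move (hact M r hr hle0) (shearMove_apply C K W μ t r) (hact M' _ hr' hle) ?_
    exact ih M' (relApply r t) hr' hW'

/-- Rescaling in a coordinate plane by four shears. -/
def planeD (p q : Fin 3) (ρ : ℚ) : List Shear :=
  [(p, q, (1 - ρ) / ρ), (q, p, 1), (p, q, ρ - 1), (q, p, -1 / ρ)]

theorem fold_planeD {p q : Fin 3} (hne : p ≠ q) {ρ : ℚ} (hρ : ρ ≠ 0) (r : Fin 3 → ℝ) :
    (planeD p q ρ).foldl relApply r
      = Function.update (Function.update r p ((ρ : ℝ) * r p)) q (r q / (ρ : ℝ)) := by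
  have hρ' : (ρ : ℝ) ≠ 0 := by exact_mod_cast hρ
  funext j
  by_cases hq : j = q
  · subst hq
    simp [planeD, relApply, hne, hne.symm]
    field_simp
    ring
  · by_cases hp : j = p
    · subst hp
      simp [planeD, relApply, hne, hne.symm]
      field_simp
      ring
    · simp [planeD, relApply, hp, hq]

/-- Rescaling all coordinates. -/
def scaleT (ρ₀ ρ₁ : ℚ) : List Shear := planeD 0 1 ρ₀ ++ planeD 1 2 (ρ₀ * ρ₁)

theorem fold_scaleT {ρ₀ ρ₁ ρ₂ : ℚ} (h0 : ρ₀ ≠ 0) (h1 : ρ₁ ≠ 0) (h : ρ₀ * ρ₁ * ρ₂ = 1)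
    (r : Fin 3 → ℝ) :
    (scaleT ρ₀ ρ₁).foldl relApply r = ![(ρ₀ : ℝ) * r 0, (ρ₁ : ℝ) * r 1, (ρ₂ : ℝ) * r 2] := by
  unfold scaleT
  rw [List.foldl_append, fold_planeD (by decide) h0, fold_planeD (by decide) (mul_ne_zero h0 h1)]
  have h0' : (ρ₀ : ℝ) ≠ 0 := by exact_mod_cast h0
  have h1' : (ρ₁ : ℝ) ≠ 0 := by exact_mod_cast h1
  have h' : (ρ₀ : ℝ) * ρ₁ * ρ₂ = 1 := by exact_mod_cast h
  have h2' : r 2 / ((ρ₀ : ℝ) * ρ₁) = ρ₂ * r 2 := by
    field_simp
    linear_combination (-(r 2)) * h'
  funext j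
  fin_cases j
  · simp [Function.update_apply]
  · simp [Function.update_apply]
    field_simp
  · simp [Function.update_apply]
    exact h2'

theorem shear_ne_scaleT (ρ₀ ρ₁ : ℚ) : ∀ t ∈ scaleT ρ₀ ρ₁, t.1 ≠ t.2.1 := by
  intro t ht
  simp only [scaleT, planeD, List.mem_append, List.mem_cons, List.not_mem_nil, or_false] at ht
  rcases ht with (rfl | rfl | rfl | rfl) | (rfl | rfl | rfl | rfl) <;> simp

/-! ### The second phase -/

section Phase2

variable {n : ℕ} (a b ρ : Fin n → Fin 3 → ℚ) (S : Fin n → ℚ) (P W μ : ℚ)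

/-- The centre of the rescaling. -/
def centre (i : Fin n) : Fin 3 → ℚ := ![S i, P, a i 2]

/-- The centre of the big cube. -/
def cubeK (i : Fin n) : Fin 3 → ℚ := ![S i, P, 0]

/-- The shifting move after the rescaling. -/
def shiftMove (i : Fin n) : Move where
  p := 2
  q := 0
  α := b i 2 - a i 2
  γ := 0
  l := fun j => cubeK S P i j - W
  u := fun j => cubeK S P i j + W
  μ := μ

/-- The moves of the second phase for one box. -/
def moves2 (i : Fin n) : List Move :=
  (scaleT (ρ i 0) (ρ i 1)).map (shearMove (centre a S P i) (cubeK S P i) W μ) ++ [shiftMove a b S P W μ i]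

/-- The affine map. -/
noncomputable def affMap (i : Fin n) (z : Fin 3 → ℝ) : Fin 3 → ℝ :=
  fun j => (b i j : ℝ) + (ρ i j : ℝ) * (z j - (a i j : ℝ))

variable {a b ρ S P W μ}

theorem moves2_valid (hW : 0 < W) (hμ : 0 < μ) (i : Fin n) : ∀ m ∈ moves2 a b ρ S P W μ i, m.Valid := by
  intro m hm
  simp only [moves2, List.mem_append, List.mem_map, List.mem_cons, List.not_mem_nil, or_false] at hm
  rcases hm with ⟨t, ht, rfl⟩ | rfl
  · exact ⟨shear_ne_scaleT _ _ t ht, hμ, fun j => by simp [shearMove]; linarith⟩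
  · exact ⟨(by decide : (2 : Fin 3) ≠ 0), hμ, fun j => by simp [shiftMove]; linarith⟩

theorem moves2_coord (i : Fin n) : ∀ m ∈ moves2 a b ρ S P W μ i,
    m.l 0 = S i - W ∧ m.u 0 = S i + W ∧ m.μ = μ := by
  intro m hm
  simp only [moves2, List.mem_append, List.mem_map, List.mem_cons, List.not_mem_nil, or_false] at hm
  rcases hm with ⟨t, _, rfl⟩ | rfl
  · simp [shearMove, cubeK]
  · simp [shiftMove, cubeK]

/-- Other boxes do not feel the second phase of a box. -/
theorem run_moves2_stay (i : Fin n) {y : Fin 3 → ℝ} (hy : (W : ℝ) + μ < |y 0 - (S i : ℝ)|) :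
    Run (moves2 a b ρ S P W μ i) y y := by
  refine run_stay fun m hm hs => ?_
  obtain ⟨h1, h2, h3⟩ := moves2_coord i m hm
  have := hs 0
  rw [h1, h2, h3] at this
  push_cast at this
  rcases lt_abs.mp hy with h | h <;> linarith [this.1, this.2]

theorem centre_add_eq_park {i : Fin n} (z : Fin 3 → ℝ) :
    (fun j => ((centre a S P i j : ℚ) : ℝ) + (z j - (a i j : ℝ))) = park a S P i z := by
  funext j
  fin_cases j <;> simp [centre, park] <;> ring

/-- A box runs through its own part of the second phase. -/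
theorem run_moves2_own {A : ℚ} (hA : ∀ i j, |a i j| ≤ A) (hB : ∀ i j, |b i j| ≤ A)
    {w : Fin n → Fin 3 → ℚ} (hwA : ∀ i j, w i j ≤ A) (hρw : ∀ i j, ρ i j * w i j ≤ A)
    (hρ : ∀ i j, 0 < ρ i j) (hprod : ∀ i, ρ i 0 * ρ i 1 * ρ i 2 = 1)
    (hW : ∀ i, A + A * growth (scaleT (ρ i 0) (ρ i 1)) < W)
    (i : Fin n) {z : Fin 3 → ℝ} (hz : Zbox (a i) (w i) z) :
    Run (moves2 a b ρ S P W μ i) (park a S P i z) (park b S P i (affMap a b ρ i z)) := by
  have hρ0 := (hρ i 0).ne'
  have hρ1 := (hρ i 1).ne'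
  have hA' : (0 : ℝ) ≤ A := by
    have := (abs_nonneg _).trans (hA i 0)
    exact_mod_cast this
  have hz' : ∀ j, |z j - (a i j : ℝ)| ≤ A := fun j => by
    have h1 := (hz j).le
    have h2 : (w i j : ℝ) ≤ A := by exact_mod_cast hwA i j
    exact h1.trans h2
  have hcube : ∀ j, |((centre a S P i j : ℚ) : ℝ) - (cubeK S P i j : ℝ)| ≤ A := by
    intro j
    fin_cases j
    · simpa [centre, cubeK] using hA'
    · simpa [centre, cubeK] using hA'
    · have : |(a i 2 : ℝ)| ≤ A := by exact_mod_cast hA i 2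
      simpa [centre, cubeK] using this
  have hWi : (A : ℝ) + A * (growth (scaleT (ρ i 0) (ρ i 1)) : ℝ) < W := by exact_mod_cast hW i
  have hgr : (1 : ℝ) ≤ (growth (scaleT (ρ i 0) (ρ i 1)) : ℝ) := by
    exact_mod_cast one_le_growth _
  have hrun := run_shears (centre a S P i) (cubeK S P i) W μ (scaleT (ρ i 0) (ρ i 1)) A
    (fun j => z j - (a i j : ℝ)) hz' (fun j => by
      have := hcube j
      linarith)
  rw [centre_add_eq_park, fold_scaleT hρ0 hρ1 (hprod i)] at hrun
  refine run_append hrun ?_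
  -- the shift in the direction `2`
  have hρ2' : ∀ j, |(ρ i j : ℝ) * (z j - (a i j : ℝ))| ≤ A := by
    intro j
    have h1 : (0 : ℝ) < ρ i j := by exact_mod_cast hρ i j
    have h2 : ((ρ i j : ℝ) * (w i j : ℝ)) ≤ A := by exact_mod_cast hρw i j
    rw [abs_mul, abs_of_pos h1]
    exact (mul_le_mul_of_nonneg_left (hz j).le h1.le).trans h2
  have hW2 : (2 : ℝ) * A < W := by nlinarith
  have hb2 : |(b i 2 : ℝ)| ≤ A := by exact_mod_cast hB i 2
  have ha2 : |(a i 2 : ℝ)| ≤ A := by exact_mod_cast hA i 2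
  have r0 := abs_le.mp (hρ2' 0)
  have r1 := abs_le.mp (hρ2' 1)
  have r2 := abs_le.mp (hρ2' 2)
  have hb2' := abs_le.mp hb2
  have ha2' := abs_le.mp ha2
  refine run_cons_move ?_ ?_ ?_ rfl
  · intro j
    fin_cases j
    · simp [shiftMove, cubeK, centre]
      constructor <;> linarith [r0.1, r0.2]
    · simp [shiftMove, cubeK, centre]
      constructor <;> linarith [r1.1, r1.2]
    · simp [shiftMove, cubeK, centre]
      constructor <;> linarith [r2.1, r2.2, ha2'.1, ha2'.2]
  · funext j
    fin_cases j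
    · simp [Move.apply, shiftMove, Function.update_apply, centre, park, affMap]
      ring
    · simp [Move.apply, shiftMove, Function.update_apply, centre, park, affMap]
      ring
    · simp [Move.apply, shiftMove, Function.update_apply, centre, park, affMap]
      ring
  · intro j
    fin_cases j
    · simp [shiftMove, cubeK, park, affMap]
      constructor <;> linarith [r0.1, r0.2, hb2'.1, hb2'.2]
    · simp [shiftMove, cubeK, park, affMap]
      constructor <;> linarith [r1.1, r1.2, hb2'.1, hb2'.2]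
    · simp [shiftMove, cubeK, park, affMap]
      constructor <;> linarith [r2.1, r2.2, hb2'.1, hb2'.2]

/-- **Phase 2**. -/
theorem exists_phase2 {A G : ℚ} (hμ : 0 < μ) (hW0 : 0 < W) (hA : ∀ i j, |a i j| ≤ A) (hB : ∀ i j, |b i j| ≤ A)
    {w : Fin n → Fin 3 → ℚ} (hwA : ∀ i j, w i j ≤ A) (hρw : ∀ i j, ρ i j * w i j ≤ A)
    (hρ : ∀ i j, 0 < ρ i j) (hprod : ∀ i, ρ i 0 * ρ i 1 * ρ i 2 = 1)
    (hW : ∀ i, A + A * growth (scaleT (ρ i 0) (ρ i 1)) < W)
    (hG : W + μ + A < G) (hS : ∀ i i', i ≠ i' → G ≤ |S i - S i'|) :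
    ∃ L : List Move, (∀ m ∈ L, m.Valid) ∧ ∀ i z, Zbox (a i) (w i) z →
      Run L (park a S P i z) (park b S P i (affMap a b ρ i z)) := by
  refine ⟨(List.finRange n).flatMap (moves2 a b ρ S P W μ), ?_, fun i z hz => ?_⟩
  · intro m hm
    obtain ⟨i, _, hi⟩ := List.mem_flatMap.mp hm
    exact moves2_valid hW0 hμ i m hi
  · obtain ⟨A₁, A₂, hord⟩ := List.append_of_mem (List.mem_finRange i)
    have hnd := List.nodup_finRange n
    rw [hord] at hnd ⊢
    have hi1 : i ∉ A₁ := by
      intro h
      have := (List.nodup_append.mp hnd).2.2 i (by simp [h]) i (by simp)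
      exact this rfl
    have hi2 : i ∉ A₂ := (List.nodup_cons.mp (List.nodup_append.mp hnd).2.1).1
    have hfar : ∀ i', i ≠ i' → ∀ y : Fin 3 → ℝ, |y 0 - (S i : ℝ)| ≤ A →
        (W : ℝ) + μ < |y 0 - (S i' : ℝ)| := by
      intro i' hne y hy
      have h1 : (G : ℝ) ≤ |(S i : ℝ) - S i'| := by exact_mod_cast hS i i' hne
      have h2 : (W : ℝ) + μ + A < G := by exact_mod_cast hG
      have h3 := abs_le.mp hy
      rcases le_abs'.mp h1 with h | h <;> rw [lt_abs]
      · right; linarith [h3.1, h3.2]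
      · left; linarith [h3.1, h3.2]
    refine run_flatMap_split A₁ A₂ i _ ?_ (run_moves2_own hA hB hwA hρw hρ hprod hW i hz) ?_
    · intro i' hi'
      have hne : i ≠ i' := fun h => hi1 (h ▸ hi')
      refine run_moves2_stay i' (hfar i' hne _ ?_)
      have h1 := (hz 0).le
      have h2 : (w i 0 : ℝ) ≤ A := by exact_mod_cast hwA i 0
      have e : park a S P i z 0 - (S i : ℝ) = z 0 - (a i 0 : ℝ) := by
        simp [park]
        ring
      rw [e]
      exact h1.trans h2
    · intro i' hi'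
      have hne : i ≠ i' := fun h => hi2 (h ▸ hi')
      refine run_moves2_stay i' (hfar i' hne _ ?_)
      have e : park b S P i (affMap a b ρ i z) 0 - (S i : ℝ)
          = (ρ i 0 : ℝ) * (z 0 - (a i 0 : ℝ)) := by
        simp [park, affMap]
        ring
      rw [e]
      have h1 : (0 : ℝ) < ρ i 0 := by exact_mod_cast hρ i 0
      have h2 : ((ρ i 0 : ℝ) * (w i 0 : ℝ)) ≤ A := by exact_mod_cast hρw i 0
      rw [abs_mul, abs_of_pos h1]
      exact (mul_le_mul_of_nonneg_left (hz 0).le h1.le).trans h2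

end Phase2

end Crest.Agent.Lib.BoxFlow
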