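import Crest.Agent.Lib.BoxFlow.Plan2

set_option autoImplicit false

/-!
The complete motion plan for a family of boxes.
-/

namespace Crest.Agent.Lib.BoxFlow

open Crest.AnalysisR.BoxFlow

theorem exists_uniform {ι : Type*} [Finite ι] (P : ι → ℚ → Prop)
    (h : ∀ i, ∃ ε : ℚ, 0 < ε ∧ ∀ θ, 0 < θ → θ ≤ ε → P i θ) :
    ∃ θ : ℚ, 0 < θ ∧ ∀ i, P i θ := by
  choose ε hε hP using h
  cases isEmpty_or_nonempty ι with
  | inl he => exact ⟨1, one_pos, fun i => isEmptyElim i⟩
  | inr hne =>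
    obtain ⟨i₀, hi₀⟩ := Finite.exists_min ε
    exact ⟨ε i₀, hε i₀, fun i => hP i _ (hε i₀) (hi₀ i)⟩

theorem sep_of_disjoint (c h c' h' : Fin 3 → ℚ) (hh : ∀ j, 0 < h j) (hh' : ∀ j, 0 < h' j)
    (hd : Disjoint (box c h) (box c' h')) : ∃ j, h j + h' j < |c j - c' j| := by
  by_contra hn
  simp only [not_exists, not_lt] at hn
  have hnR : ∀ j, |(c j : ℝ) - c' j| ≤ (h j : ℝ) + h' j := fun j => by exact_mod_cast hn j
  set x : Fin 3 → ℝ := fun j => (c j : ℝ) + ((c' j : ℝ) - c j) * ((h j : ℝ) / ((h j : ℝ) + h' j)) with hx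
  have hpos : ∀ j, (0 : ℝ) < (h j : ℝ) := fun j => by exact_mod_cast hh j
  have hpos' : ∀ j, (0 : ℝ) < (h' j : ℝ) := fun j => by exact_mod_cast hh' j
  have h1 : x ∈ box c h := by
    intro j
    have e : x j - (c j : ℝ) = ((c' j : ℝ) - c j) * ((h j : ℝ) / ((h j : ℝ) + h' j)) := by
      simp [hx]
    have hs : (0 : ℝ) < (h j : ℝ) + h' j := add_pos (hpos j) (hpos' j)
    rw [e, abs_mul, abs_sub_comm, abs_of_pos (div_pos (hpos j) hs), ← mul_div_assoc,
      div_le_iff₀ hs]
    nlinarith [hnR j, hpos j]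
  have h2 : x ∈ box c' h' := by
    intro j
    have hs : (0 : ℝ) < (h j : ℝ) + h' j := add_pos (hpos j) (hpos' j)
    have e : x j - (c' j : ℝ) = ((c j : ℝ) - c' j) * ((h' j : ℝ) / ((h j : ℝ) + h' j)) := by
      simp only [hx]
      field_simp
      ring
    rw [e, abs_mul, abs_of_pos (div_pos (hpos' j) hs), ← mul_div_assoc, div_le_iff₀ hs]
    nlinarith [hnR j, hpos' j]
  exact Set.disjoint_left.mp hd h1 h2

theorem exists_moves {n : ℕ} (a b h k : Fin n → Fin 3 → ℚ)
    (hh : ∀ i j, 0 < h i j) (hk : ∀ i j, 0 < k i j)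
    (ha : Pairwise fun i i' => Disjoint (box (a i) (h i)) (box (a i') (h i')))
    (hb : Pairwise fun i i' => Disjoint (box (b i) (k i)) (box (b i') (k i')))
    (hvol : ∀ i, ∏ j : Fin 3, k i j / h i j = 1) :
    ∃ L : List Move, (∀ m ∈ L, m.Valid) ∧ ∃ θ : ℚ, 0 < θ ∧ ∀ i z,
      (∀ j, |z j - (a i j : ℝ)| < ((h i j + θ : ℚ) : ℝ)) →
      Run L z (fun j => (b i j : ℝ) + ((k i j / h i j : ℚ) : ℝ) * (z j - (a i j : ℝ))) := by
  set ρ : Fin n → Fin 3 → ℚ := fun i j => k i j / h i j with hρdef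
  have hρ : ∀ i j, 0 < ρ i j := fun i j => div_pos (hk i j) (hh i j)
  have hρh : ∀ i j, ρ i j * h i j = k i j := fun i j => by
    simp only [hρdef]
    exact div_mul_cancel₀ _ (hh i j).ne'
  have hprod : ∀ i, ρ i 0 * ρ i 1 * ρ i 2 = 1 := fun i => by
    have := hvol i
    rwa [Fin.prod_univ_three] at this
  -- the margin
  obtain ⟨θ, hθ, hsep⟩ := exists_uniform (ι := Fin n × Fin n)
    (fun x θ => x.1 ≠ x.2 →
      (∃ j, (h x.1 j + θ) + (h x.2 j + θ) + 2 * θ < |a x.1 j - a x.2 j|) ∧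
      (∃ j, ρ x.1 j * (h x.1 j + θ) + ρ x.2 j * (h x.2 j + θ) + 2 * θ < |b x.1 j - b x.2 j|))
    (by
      rintro ⟨i, i'⟩
      by_cases hne : i = i'
      · exact ⟨1, one_pos, fun θ _ _ hn => absurd hne hn⟩
      obtain ⟨j₁, hj₁⟩ := sep_of_disjoint _ _ _ _ (hh i) (hh i') (ha hne)
      obtain ⟨j₂, hj₂⟩ := sep_of_disjoint _ _ _ _ (hk i) (hk i') (hb hne)
      set g₁ := |a i j₁ - a i' j₁| - (h i j₁ + h i' j₁) with hg₁
      set g₂ := |b i j₂ - b i' j₂| - (k i j₂ + k i' j₂) with hg₂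
      have hg₁0 : 0 < g₁ := by rw [hg₁]; linarith
      have hg₂0 : 0 < g₂ := by rw [hg₂]; linarith
      have hc0 : 0 < ρ i j₂ + ρ i' j₂ + 2 := by
        have := hρ i j₂
        have := hρ i' j₂
        linarith
      refine ⟨min (g₁ / 5) (g₂ / (2 * (ρ i j₂ + ρ i' j₂ + 2))), lt_min (by positivity) (by positivity),
        fun θ hθ hle _ => ⟨⟨j₁, ?_⟩, ⟨j₂, ?_⟩⟩⟩
      · have := (le_min_iff.mp hle).1
        simp only
        linarith
      · have h2 := (le_min_iff.mp hle).2
        rw [le_div_iff₀ (by positivity)] at h2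
        simp only
        have e : ρ i j₂ * (h i j₂ + θ) + ρ i' j₂ * (h i' j₂ + θ) + 2 * θ
            = k i j₂ + k i' j₂ + θ * (ρ i j₂ + ρ i' j₂ + 2) := by
          rw [← hρh i j₂, ← hρh i' j₂]
          ring
        rw [e]
        nlinarith)
  -- the sizes
  set μ : ℚ := θ with hμdef
  set w : Fin n → Fin 3 → ℚ := fun i j => h i j + θ with hwdef
  set w' : Fin n → Fin 3 → ℚ := fun i j => ρ i j * w i j with hw'def
  have hw : ∀ i j, 0 < w i j := fun i j => add_pos (hh i j) hθ
  have hw' : ∀ i j, 0 < w' i j := fun i j => mul_pos (hρ i j) (hw i j)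
  set f : Fin n → Fin 3 → ℚ := fun i j => |a i j| + |b i j| + w i j + w' i j with hfdef
  have hf0 : ∀ i j, 0 ≤ f i j := fun i j => by
    have := abs_nonneg (a i j)
    have := abs_nonneg (b i j)
    have := hw i j
    have := hw' i j
    simp only [hfdef]
    linarith
  set A : ℚ := 1 + θ + ∑ i, ∑ j, f i j with hAdef
  have hfA : ∀ i j, f i j + 1 + θ ≤ A := by
    intro i j
    have h1 : f i j ≤ ∑ j, f i j :=
      Finset.single_le_sum (f := fun j => f i j) (fun j _ => hf0 i j) (Finset.mem_univ j)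
    have h2 : ∑ j, f i j ≤ ∑ i, ∑ j, f i j :=
      Finset.single_le_sum (f := fun i => ∑ j, f i j)
        (fun i _ => Finset.sum_nonneg fun j _ => hf0 i j) (Finset.mem_univ i)
    simp only [hAdef]
    linarith
  have hA0 : 0 ≤ ∑ i, ∑ j, f i j := Finset.sum_nonneg fun i _ => Finset.sum_nonneg fun j _ => hf0 i j
  have hA1 : 1 ≤ A := by
    simp only [hAdef]
    linarith
  have hθA : θ ≤ A := by
    simp only [hAdef]
    linarith
  have haA : ∀ i j, |a i j| ≤ A := fun i j => by
    have := hfA i j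
    have := abs_nonneg (b i j)
    have := hw i j
    have := hw' i j
    simp only [hfdef] at *
    linarith
  have hbA : ∀ i j, |b i j| ≤ A := fun i j => by
    have := hfA i j
    have := abs_nonneg (a i j)
    have := hw i j
    have := hw' i j
    simp only [hfdef] at *
    linarith
  have hwA : ∀ i j, w i j ≤ A := fun i j => by
    have := hfA i j
    have := abs_nonneg (a i j)
    have := abs_nonneg (b i j)
    have := hw' i j
    simp only [hfdef] at *
    linarith
  have hw'A : ∀ i j, w' i j ≤ A := fun i j => by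
    have := hfA i j
    have := abs_nonneg (a i j)
    have := abs_nonneg (b i j)
    have := hw i j
    simp only [hfdef] at *
    linarith
  -- the big cubes
  set Gr : ℚ := ∑ i, growth (scaleT (ρ i 0) (ρ i 1)) with hGrdef
  set W : ℚ := 1 + A + A * Gr with hWdef
  have hgr : ∀ i, growth (scaleT (ρ i 0) (ρ i 1)) ≤ Gr := fun i =>
    Finset.single_le_sum (f := fun i => growth (scaleT (ρ i 0) (ρ i 1)))
      (fun i _ => (zero_le_one.trans (one_le_growth _))) (Finset.mem_univ i)
  have hGr0 : 0 ≤ Gr := Finset.sum_nonneg fun i _ => (zero_le_one.trans (one_le_growth _))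
  have hW0 : 0 < W := by
    have : 0 ≤ A * Gr := mul_nonneg (by linarith) hGr0
    simp only [hWdef]
    linarith
  have hWi : ∀ i, A + A * growth (scaleT (ρ i 0) (ρ i 1)) < W := fun i => by
    have : A * growth (scaleT (ρ i 0) (ρ i 1)) ≤ A * Gr :=
      mul_le_mul_of_nonneg_left (hgr i) (by linarith)
    simp only [hWdef]
    linarith
  set G : ℚ := W + 3 * A + θ + 1 with hGdef
  have hG0 : 0 < G := by
    simp only [hGdef]
    linarith
  set S : Fin n → ℚ := fun i => 4 * A + (i.1 : ℚ) * G with hSdef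
  set P : ℚ := 4 * A with hPdef
  have hSge : ∀ i, 4 * A ≤ S i := fun i => by
    have : 0 ≤ (i.1 : ℚ) * G := by positivity
    simp only [hSdef]
    linarith
  have hSS : ∀ i i', i ≠ i' → G ≤ |S i - S i'| := by
    intro i i' hne
    have e : S i - S i' = ((i.1 : ℚ) - i'.1) * G := by
      simp only [hSdef]
      ring
    rw [e, abs_mul, abs_of_pos hG0]
    have h1 : (1 : ℚ) ≤ |(i.1 : ℚ) - i'.1| := by
      have hne' : (i.1 : ℤ) - i'.1 ≠ 0 := by
        intro h0
        apply hne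
        apply Fin.ext
        omega
      have : (1 : ℤ) ≤ |(i.1 : ℤ) - i'.1| := Int.one_le_abs hne'
      have h2 : ((1 : ℤ) : ℚ) ≤ ((|(i.1 : ℤ) - i'.1| : ℤ) : ℚ) := by exact_mod_cast this
      push_cast at h2
      exact h2
    nlinarith
  have hfar : ∀ (c u : Fin n → Fin 3 → ℚ), (∀ i j, |c i j| ≤ A) → (∀ i j, u i j ≤ A) →
      FarCond c u S P μ := by
    intro c u hc hu
    refine ⟨fun i i' => ?_, fun i i' => ?_, fun i i' hne => ?_⟩
    · have h1 := le_abs_self (c i' 0)
      have h2 := hc i' 0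
      have h3 := hu i' 0
      have h4 := hu i 0
      have h5 := hSge i
      linarith
    · have h1 := le_abs_self (c i' 1)
      have h2 := hc i' 1
      have h3 := hu i' 1
      have h4 := hu i 1
      simp only [hPdef]
      linarith
    · have h1 := hSS i i' hne
      have h3 := hu i' 0
      have h4 := hu i 0
      simp only [hGdef] at h1
      have hWpos := hW0
      linarith
  have hcS : ∀ (c : Fin n → Fin 3 → ℚ), (∀ i j, |c i j| ≤ A) → ∀ i, c i 0 ≤ S i := by
    intro c hc i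
    have h1 := le_abs_self (c i 0)
    have h2 := hc i 0
    have h5 := hSge i
    linarith
  have hcP : ∀ (c : Fin n → Fin 3 → ℚ), (∀ i j, |c i j| ≤ A) → ∀ i, c i 1 ≤ P := by
    intro c hc i
    have h1 := le_abs_self (c i 1)
    have h2 := hc i 1
    simp only [hPdef]
    linarith
  -- the three phases
  obtain ⟨L₁, hL₁, hrun₁⟩ := exists_parking (c := a) (w := w) (S := S) (P := P) (μ := μ) hw hθ
    (hcS a haA) (hcP a haA) (hfar a w haA hwA) (fun i i' hne => by
      obtain ⟨⟨j, hj⟩, _⟩ := hsep (i, i') hne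
      refine ⟨j, ?_⟩
      simp only [hwdef]
      simp only at hj
      linarith)
  obtain ⟨L₃, hL₃, hrun₃⟩ := exists_parking (c := b) (w := w') (S := S) (P := P) (μ := μ) hw' hθ
    (hcS b hbA) (hcP b hbA) (hfar b w' hbA hw'A) (fun i i' hne => by
      obtain ⟨_, ⟨j, hj⟩⟩ := hsep (i, i') hne
      refine ⟨j, ?_⟩
      simp only [hw'def, hwdef]
      simp only at hj
      linarith)
  obtain ⟨L₂, hL₂, hrun₂⟩ := exists_phase2 (a := a) (b := b) (ρ := ρ) (S := S) (P := P) (W := W)
    (μ := μ) (A := A) (G := G) (w := w) hθ hW0 haA hbA hwA hw'A hρ hprod hWi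
    (by
      simp only [hGdef]
      linarith) hSS
  refine ⟨L₁ ++ (L₂ ++ L₃.reverse.map Move.inv), ?_, θ, hθ, fun i z hz => ?_⟩
  · intro m hm
    simp only [List.mem_append, List.mem_map, List.mem_reverse] at hm
    rcases hm with hm | hm | ⟨m', hm', rfl⟩
    · exact hL₁ m hm
    · exact hL₂ m hm
    · have := hL₃ m' hm'
      exact ⟨this.ne, this.μ_pos, this.lt⟩
  · have hZ : Zbox (a i) (w i) z := hz
    have hZ' : Zbox (b i) (w' i) (affMap a b ρ i z) := by
      intro j
      have h1 : (0 : ℝ) < ρ i j := by exact_mod_cast hρ i j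
      have e : affMap a b ρ i z j - (b i j : ℝ) = (ρ i j : ℝ) * (z j - (a i j : ℝ)) := by
        simp [affMap]
      rw [e, abs_mul, abs_of_pos h1]
      have h2 := mul_lt_mul_of_pos_left (hZ j) h1
      simp only [hw'def]
      push_cast
      exact h2
    refine run_append (hrun₁ i z hZ) (run_append (hrun₂ i z hZ) ?_)
    exact run_reverse (fun m hm => (hL₃ m hm).ne) (hrun₃ i _ hZ')

end Crest.Agent.Lib.BoxFlow
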