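import Mathlib

set_option autoImplicit false

/-!
Rational arithmetic as primitive recursive functions on triples of naturals, and the bridge to the
`Primcodable ℚ` structure that comes from `Denumerable ℚ`.
-/

namespace Crest.Agent.Lib.BoxFlow

open Encodable

/-- Rational numbers as triples of naturals: `(a,b,d)` stands for `(a-b)/(d+1)`. -/
abbrev QQ := ℕ × ℕ × ℕ

/-- The value of a triple. -/
def val (x : QQ) : ℚ := ((x.1 : ℚ) - x.2.1) / ((x.2.2 : ℚ) + 1)

theorem den_pos (x : QQ) : (0:ℚ) < (x.2.2 : ℚ) + 1 := by positivity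
theorem den_ne (x : QQ) : ((x.2.2 : ℚ) + 1) ≠ 0 := (den_pos x).ne'

def qadd (x y : QQ) : QQ :=
  (x.1 * (y.2.2 + 1) + y.1 * (x.2.2 + 1), x.2.1 * (y.2.2 + 1) + y.2.1 * (x.2.2 + 1),
    x.2.2 + y.2.2 + x.2.2 * y.2.2)

def qmul (x y : QQ) : QQ :=
  (x.1 * y.1 + x.2.1 * y.2.1, x.1 * y.2.1 + x.2.1 * y.1, x.2.2 + y.2.2 + x.2.2 * y.2.2)

def qneg (x : QQ) : QQ := (x.2.1, x.1, x.2.2)

def qsub (x y : QQ) : QQ := qadd x (qneg y)

def qnat (n : ℕ) : QQ := (n, 0, 0)

def qinv (x : QQ) : QQ :=
  if x.2.1 < x.1 then (x.2.2 + 1, 0, x.1 - x.2.1 - 1)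
  else if x.1 < x.2.1 then (0, x.2.2 + 1, x.2.1 - x.1 - 1)
  else (0, 0, 0)

def qdiv (x y : QQ) : QQ := qmul x (qinv y)

/-- Decidable comparison of values. -/
def qle (x y : QQ) : Prop := x.1 * (y.2.2 + 1) + y.2.1 * (x.2.2 + 1) ≤ y.1 * (x.2.2 + 1) + x.2.1 * (y.2.2 + 1)

instance (x y : QQ) : Decidable (qle x y) := by unfold qle; infer_instance

def qpow (x : QQ) : ℕ → QQ
  | 0 => qnat 1
  | k + 1 => qmul (qpow x k) x

/-- A natural number bound: `val x ≤ qceil x`. -/
def qceil (x : QQ) : ℕ := (x.1 - x.2.1) / (x.2.2 + 1) + 1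

def qabs (x : QQ) : QQ := if x.2.1 ≤ x.1 then (x.1 - x.2.1, 0, x.2.2) else (x.2.1 - x.1, 0, x.2.2)

@[simp] theorem val_qadd (x y : QQ) : val (qadd x y) = val x + val y := by
  have h1 := den_ne x
  have h2 := den_ne y
  have h3 : ((x.2.2 + y.2.2 + x.2.2 * y.2.2 : ℕ) : ℚ) + 1 = ((x.2.2 : ℚ) + 1) * ((y.2.2 : ℚ) + 1) := by
    push_cast; ring
  simp only [val, qadd, h3]
  push_cast
  field_simp
  ring

@[simp] theorem val_qmul (x y : QQ) : val (qmul x y) = val x * val y := by
  have h1 := den_ne x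
  have h2 := den_ne y
  have h3 : ((x.2.2 + y.2.2 + x.2.2 * y.2.2 : ℕ) : ℚ) + 1 = ((x.2.2 : ℚ) + 1) * ((y.2.2 : ℚ) + 1) := by
    push_cast; ring
  simp only [val, qmul, h3]
  push_cast
  field_simp
  ring

@[simp] theorem val_qneg (x : QQ) : val (qneg x) = - val x := by
  simp only [val, qneg]
  ring

@[simp] theorem val_qsub (x y : QQ) : val (qsub x y) = val x - val y := by
  simp [qsub, sub_eq_add_neg]

@[simp] theorem val_qnat (n : ℕ) : val (qnat n) = n := by
  simp [val, qnat]

@[simp] theorem val_qinv (x : QQ) : val (qinv x) = (val x)⁻¹ := by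
  have h1 := den_ne x
  unfold qinv
  split_ifs with h h'
  · have h2 : ((x.1 - x.2.1 - 1 : ℕ) : ℚ) + 1 = (x.1 : ℚ) - x.2.1 := by
      have : x.2.1 + 1 ≤ x.1 := h
      have e : x.1 - x.2.1 - 1 + 1 + x.2.1 = x.1 := by omega
      have e' : (((x.1 - x.2.1 - 1 : ℕ) : ℚ) + 1) + x.2.1 = x.1 := by exact_mod_cast e
      linarith
    have h3 : (x.1 : ℚ) - x.2.1 ≠ 0 := by
      have : (x.2.1 : ℚ) < x.1 := by exact_mod_cast h
      intro h0
      linarith
    simp only [val, h2]
    push_cast
    field_simp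
    ring
  · have h2 : ((x.2.1 - x.1 - 1 : ℕ) : ℚ) + 1 = (x.2.1 : ℚ) - x.1 := by
      have : x.1 + 1 ≤ x.2.1 := h'
      have e : x.2.1 - x.1 - 1 + 1 + x.1 = x.2.1 := by omega
      have e' : (((x.2.1 - x.1 - 1 : ℕ) : ℚ) + 1) + x.1 = x.2.1 := by exact_mod_cast e
      linarith
    have h3 : (x.2.1 : ℚ) - x.1 ≠ 0 := by
      have : (x.1 : ℚ) < x.2.1 := by exact_mod_cast h'
      intro h0
      linarith
    have h4 : (x.1 : ℚ) - x.2.1 ≠ 0 := by
      intro h0; apply h3; linarith
    simp only [val, h2]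
    push_cast
    field_simp
    ring
  · have e : x.1 = x.2.1 := by omega
    simp [val, e]

@[simp] theorem val_qdiv (x y : QQ) : val (qdiv x y) = val x / val y := by
  simp [qdiv, div_eq_mul_inv]

@[simp] theorem val_qpow (x : QQ) (k : ℕ) : val (qpow x k) = val x ^ k := by
  induction k with
  | zero => simp [qpow]
  | succ k ih => simp [qpow, ih, pow_succ]

theorem qle_iff (x y : QQ) : qle x y ↔ val x ≤ val y := by
  have h1 := den_pos x
  have h2 := den_pos y
  unfold qle val
  rw [div_le_div_iff₀ h1 h2]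
  constructor
  · intro h
    have h' : ((x.1 * (y.2.2 + 1) + y.2.1 * (x.2.2 + 1) : ℕ) : ℚ)
        ≤ ((y.1 * (x.2.2 + 1) + x.2.1 * (y.2.2 + 1) : ℕ) : ℚ) := by exact_mod_cast h
    push_cast at h'
    nlinarith [h']
  · intro h
    have h' : ((x.1 * (y.2.2 + 1) + y.2.1 * (x.2.2 + 1) : ℕ) : ℚ)
        ≤ ((y.1 * (x.2.2 + 1) + x.2.1 * (y.2.2 + 1) : ℕ) : ℚ) := by
      push_cast
      nlinarith [h]
    exact_mod_cast h'

theorem val_le_qceil (x : QQ) : val x ≤ qceil x := by
  have h1 := den_pos x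
  unfold val qceil
  rw [div_le_iff₀ h1]
  have h2 : x.1 - x.2.1 < ((x.1 - x.2.1) / (x.2.2 + 1) + 1) * (x.2.2 + 1) := by
    have := Nat.lt_succ_iff.mpr (le_refl ((x.1 - x.2.1) / (x.2.2 + 1)))
    have h3 := Nat.div_add_mod (x.1 - x.2.1) (x.2.2 + 1)
    have h4 := Nat.mod_lt (x.1 - x.2.1) (Nat.succ_pos x.2.2)
    nlinarith
  have h3 : (x.1 : ℚ) - x.2.1 ≤ ((x.1 - x.2.1 : ℕ) : ℚ) := by
    have : x.1 ≤ (x.1 - x.2.1) + x.2.1 := by omega
    have h5 : (x.1 : ℚ) ≤ ((x.1 - x.2.1 : ℕ) : ℚ) + x.2.1 := by exact_mod_cast this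
    linarith
  have h4 : ((x.1 - x.2.1 : ℕ) : ℚ) < (((x.1 - x.2.1) / (x.2.2 + 1) + 1) * (x.2.2 + 1) : ℕ) := by
    exact_mod_cast h2
  push_cast at h4
  push_cast
  linarith

@[simp] theorem val_qabs (x : QQ) : val (qabs x) = |val x| := by
  have h1 := den_pos x
  unfold qabs val
  simp only [abs_div]
  rw [abs_of_pos h1]
  split_ifs with h
  · have : (x.2.1 : ℚ) ≤ x.1 := by exact_mod_cast h
    rw [abs_of_nonneg (by linarith)]
    push_cast [Nat.cast_sub h]
    simp
  · have h' : x.1 ≤ x.2.1 := by omega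
    have : (x.1 : ℚ) ≤ x.2.1 := by exact_mod_cast h'
    rw [abs_of_nonpos (by linarith)]
    push_cast [Nat.cast_sub h']
    simp

/-! ### Primitive recursiveness -/

section prim

variable {α : Type*} [Primcodable α]

theorem prim_add {f g : α → ℕ} (hf : Primrec f) (hg : Primrec g) :
    Primrec fun a => f a + g a := Primrec.nat_add.comp hf hg

theorem prim_mul {f g : α → ℕ} (hf : Primrec f) (hg : Primrec g) :
    Primrec fun a => f a * g a := Primrec.nat_mul.comp hf hg

theorem prim_sub {f g : α → ℕ} (hf : Primrec f) (hg : Primrec g) :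
    Primrec fun a => f a - g a := Primrec.nat_sub.comp hf hg

theorem prim_div {f g : α → ℕ} (hf : Primrec f) (hg : Primrec g) :
    Primrec fun a => f a / g a := Primrec.nat_div.comp hf hg

theorem prim_succ {f : α → ℕ} (hf : Primrec f) : Primrec fun a => f a + 1 :=
  Primrec.succ.comp hf

theorem prim_triple {f g h : α → ℕ} (hf : Primrec f) (hg : Primrec g) (hh : Primrec h) :
    Primrec fun a => ((f a, g a, h a) : QQ) := hf.pair (hg.pair hh)

theorem prim_A {f : α → QQ} (hf : Primrec f) : Primrec fun a => (f a).1 := Primrec.fst.comp hf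
theorem prim_B {f : α → QQ} (hf : Primrec f) : Primrec fun a => (f a).2.1 :=
  Primrec.fst.comp (Primrec.snd.comp hf)
theorem prim_D {f : α → QQ} (hf : Primrec f) : Primrec fun a => (f a).2.2 :=
  Primrec.snd.comp (Primrec.snd.comp hf)

theorem prim_qadd {f g : α → QQ} (hf : Primrec f) (hg : Primrec g) :
    Primrec fun a => qadd (f a) (g a) := by
  unfold qadd
  exact prim_triple
    (prim_add (prim_mul (prim_A hf) (prim_succ (prim_D hg))) (prim_mul (prim_A hg) (prim_succ (prim_D hf))))
    (prim_add (prim_mul (prim_B hf) (prim_succ (prim_D hg))) (prim_mul (prim_B hg) (prim_succ (prim_D hf))))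
    (prim_add (prim_add (prim_D hf) (prim_D hg)) (prim_mul (prim_D hf) (prim_D hg)))

theorem prim_qmul {f g : α → QQ} (hf : Primrec f) (hg : Primrec g) :
    Primrec fun a => qmul (f a) (g a) := by
  unfold qmul
  exact prim_triple
    (prim_add (prim_mul (prim_A hf) (prim_A hg)) (prim_mul (prim_B hf) (prim_B hg)))
    (prim_add (prim_mul (prim_A hf) (prim_B hg)) (prim_mul (prim_B hf) (prim_A hg)))
    (prim_add (prim_add (prim_D hf) (prim_D hg)) (prim_mul (prim_D hf) (prim_D hg)))

theorem prim_qneg {f : α → QQ} (hf : Primrec f) : Primrec fun a => qneg (f a) :=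
  prim_triple (prim_B hf) (prim_A hf) (prim_D hf)

theorem prim_qsub {f g : α → QQ} (hf : Primrec f) (hg : Primrec g) :
    Primrec fun a => qsub (f a) (g a) := prim_qadd hf (prim_qneg hg)

theorem prim_qnat {f : α → ℕ} (hf : Primrec f) : Primrec fun a => qnat (f a) :=
  prim_triple hf (Primrec.const (0:ℕ)) (Primrec.const (0:ℕ))

theorem prim_lt {f g : α → ℕ} (hf : Primrec f) (hg : Primrec g) :
    PrimrecPred fun a => f a < g a := Primrec.nat_lt.comp hf hg

theorem prim_le {f g : α → ℕ} (hf : Primrec f) (hg : Primrec g) :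
    PrimrecPred fun a => f a ≤ g a := Primrec.nat_le.comp hf hg

theorem prim_qinv {f : α → QQ} (hf : Primrec f) : Primrec fun a => qinv (f a) := by
  unfold qinv
  refine Primrec.ite (prim_lt (prim_B hf) (prim_A hf)) ?_ (Primrec.ite (prim_lt (prim_A hf) (prim_B hf)) ?_ ?_)
  · exact prim_triple (prim_succ (prim_D hf)) (Primrec.const 0)
      (prim_sub (prim_sub (prim_A hf) (prim_B hf)) (Primrec.const 1))
  · exact prim_triple (Primrec.const 0) (prim_succ (prim_D hf))
      (prim_sub (prim_sub (prim_B hf) (prim_A hf)) (Primrec.const 1))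
  · exact Primrec.const _

theorem prim_qdiv {f g : α → QQ} (hf : Primrec f) (hg : Primrec g) :
    Primrec fun a => qdiv (f a) (g a) := prim_qmul hf (prim_qinv hg)

theorem prim_qle {f g : α → QQ} (hf : Primrec f) (hg : Primrec g) :
    PrimrecPred fun a => qle (f a) (g a) := by
  unfold qle
  exact prim_le
    (prim_add (prim_mul (prim_A hf) (prim_succ (prim_D hg))) (prim_mul (prim_B hg) (prim_succ (prim_D hf))))
    (prim_add (prim_mul (prim_A hg) (prim_succ (prim_D hf))) (prim_mul (prim_B hf) (prim_succ (prim_D hg))))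

theorem prim_qpow {f : α → QQ} {g : α → ℕ} (hf : Primrec f) (hg : Primrec g) :
    Primrec fun a => qpow (f a) (g a) := by
  have h : Primrec fun a => Nat.rec (motive := fun _ => QQ) (qnat 1)
      (fun _ ih => qmul ih (f a)) (g a) := by
    refine Primrec.nat_rec' (f := g) (g := fun _ => qnat 1) (h := fun a p => qmul p.2 (f a))
      hg (Primrec.const _) ?_
    exact (prim_qmul (Primrec.snd.comp Primrec.snd) (hf.comp Primrec.fst)).to₂
  refine h.of_eq fun a => ?_
  generalize g a = n
  induction n with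
  | zero => rfl
  | succ n ih => simp only [qpow]; rw [← ih]

theorem prim_qceil {f : α → QQ} (hf : Primrec f) : Primrec fun a => qceil (f a) := by
  unfold qceil
  exact prim_succ (prim_div (prim_sub (prim_A hf) (prim_B hf)) (prim_succ (prim_D hf)))

theorem prim_qabs {f : α → QQ} (hf : Primrec f) : Primrec fun a => qabs (f a) := by
  unfold qabs
  refine Primrec.ite (prim_le (prim_B hf) (prim_A hf)) ?_ ?_
  · exact prim_triple (prim_sub (prim_A hf) (prim_B hf)) (Primrec.const 0) (prim_D hf)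
  · exact prim_triple (prim_sub (prim_B hf) (prim_A hf)) (Primrec.const 0) (prim_D hf)

end prim

/-! ### The bridge with `Primcodable ℚ` -/

/-- The "natural" code of a rational number. -/
abbrev ccode (q : ℚ) : ℕ := @Encodable.encode ℚ Rat.instEncodable q

theorem ccode_eq (q : ℚ) : ccode q = Nat.pair (@Encodable.encode ℤ Int.encodable q.num) q.den := rfl

/-- The encoding used by `Primcodable ℚ`. -/
abbrev ecode (q : ℚ) : ℕ := @Encodable.encode ℚ (Primcodable.ofDenumerable ℚ).toEncodable q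

theorem ecode_eq (q : ℚ) : ecode q = (List.range (ccode q)).countP
    (fun y => @decide (y ∈ Set.range ccode) (@Encodable.decidableRangeEncode ℚ Rat.instEncodable y)) := rfl

theorem encode_int (z : ℤ) : @Encodable.encode ℤ Int.encodable z =
    if 0 ≤ z then 2 * z.toNat else 2 * (-z - 1).toNat + 1 := by
  cases z with
  | ofNat n =>
    have : @Encodable.encode ℤ Int.encodable (Int.ofNat n) = 2 * n := rfl
    rw [this]
    simp
  | negSucc n =>
    have : @Encodable.encode ℤ Int.encodable (Int.negSucc n) = 2 * n + 1 := rfl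
    rw [this]
    have h : ¬ (0 ≤ Int.negSucc n) := by simp
    rw [if_neg h]
    congr 2
    have : -Int.negSucc n - 1 = (n : ℤ) := by
      rw [Int.negSucc_eq]; ring
    rw [this]; simp

/-- natural absolute value from the code of an integer -/
def zabs (c : ℕ) : ℕ := if c % 2 = 0 then c / 2 else (c + 1) / 2

theorem zabs_encode (z : ℤ) : zabs (@Encodable.encode ℤ Int.encodable z) = z.natAbs := by
  rw [encode_int]
  unfold zabs
  by_cases hz : 0 ≤ z
  · rw [if_pos hz]
    simp
    omega
  · rw [if_neg hz]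
    have : (2 * (-z - 1).toNat + 1) % 2 = 1 := by omega
    rw [if_neg (by omega)]
    omega

theorem exists_code_of (zc d : ℕ) (hd : 0 < d) (h : Nat.Coprime (zabs zc) d) :
    ∃ q : ℚ, ccode q = Nat.pair zc d := by
  obtain ⟨z, rfl⟩ : ∃ z : ℤ, @Encodable.encode ℤ Int.encodable z = zc :=
    ⟨Equiv.intEquivNat.symm zc, Equiv.intEquivNat.apply_symm_apply zc⟩
  rw [zabs_encode] at h
  exact ⟨⟨z, d, hd.ne', h⟩, rfl⟩

/-- Is `y` the natural code of a rational? -/
def isCode (y : ℕ) : Prop := 0 < y.unpair.2 ∧ Nat.Coprime (zabs y.unpair.1) y.unpair.2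

theorem isCode_iff (y : ℕ) : isCode y ↔ y ∈ Set.range ccode := by
  constructor
  · rintro ⟨h1, h2⟩
    obtain ⟨q, hq⟩ := exists_code_of _ _ h1 h2
    exact ⟨q, by rw [hq, Nat.pair_unpair]⟩
  · rintro ⟨q, rfl⟩
    unfold isCode
    rw [ccode_eq, Nat.unpair_pair]
    simp only
    rw [zabs_encode]
    exact ⟨q.den_pos, q.reduced⟩

theorem prim_zabs : Primrec zabs := by
  unfold zabs
  refine Primrec.ite ?_ ?_ ?_
  · exact Primrec.eq.comp (Primrec.nat_mod.comp Primrec.id (Primrec.const 2)) (Primrec.const 0)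
  · exact prim_div Primrec.id (Primrec.const 2)
  · exact prim_div (prim_succ Primrec.id) (Primrec.const 2)

theorem coprime_iff (a d : ℕ) (hd : 0 < d) :
    Nat.Coprime a d ↔ ∀ k < d + 1, ¬ (2 ≤ k ∧ a % k = 0 ∧ d % k = 0) := by
  constructor
  · intro h k _ ⟨h2, h3, h4⟩
    have h5 : k ∣ Nat.gcd a d := Nat.dvd_gcd (Nat.dvd_of_mod_eq_zero h3) (Nat.dvd_of_mod_eq_zero h4)
    rw [h] at h5
    have := Nat.le_of_dvd (by norm_num) h5
    omega
  · intro h
    by_contra hne
    have hg : Nat.gcd a d ≠ 1 := hne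
    have hg0 : Nat.gcd a d ≠ 0 := by
      intro h0
      have := Nat.eq_zero_of_gcd_eq_zero_right h0
      omega
    have hle : Nat.gcd a d ≤ d := Nat.le_of_dvd hd (Nat.gcd_dvd_right a d)
    exact h (Nat.gcd a d) (by omega) ⟨by omega, Nat.mod_eq_zero_of_dvd (Nat.gcd_dvd_left a d),
      Nat.mod_eq_zero_of_dvd (Nat.gcd_dvd_right a d)⟩

theorem prim_isCode : PrimrecPred isCode := by
  have hpos : PrimrecPred fun y : ℕ => 0 < y.unpair.2 :=
    prim_lt (Primrec.const 0) (Primrec.snd.comp Primrec.unpair)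
  have hrel : PrimrecRel fun (k : ℕ) (y : ℕ) =>
      ¬ (2 ≤ k ∧ (zabs y.unpair.1) % k = 0 ∧ y.unpair.2 % k = 0) := by
    have h1 : PrimrecPred fun p : ℕ × ℕ => 2 ≤ p.1 := prim_le (Primrec.const 2) Primrec.fst
    have h2 : PrimrecPred fun p : ℕ × ℕ => (zabs p.2.unpair.1) % p.1 = 0 :=
      Primrec.eq.comp (Primrec.nat_mod.comp
        (prim_zabs.comp (Primrec.fst.comp (Primrec.unpair.comp Primrec.snd))) Primrec.fst)
        (Primrec.const 0)
    have h3 : PrimrecPred fun p : ℕ × ℕ => p.2.unpair.2 % p.1 = 0 :=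
      Primrec.eq.comp (Primrec.nat_mod.comp
        (Primrec.snd.comp (Primrec.unpair.comp Primrec.snd)) Primrec.fst)
        (Primrec.const 0)
    exact (h1.and (h2.and h3)).not
  have hall : PrimrecPred fun y : ℕ => ∀ k < y.unpair.2 + 1,
      ¬ (2 ≤ k ∧ (zabs y.unpair.1) % k = 0 ∧ y.unpair.2 % k = 0) := by
    have := hrel.forall_lt
    exact this.comp (prim_succ (Primrec.snd.comp Primrec.unpair)) Primrec.id
  refine (hpos.and hall).of_eq fun y => ?_
  unfold isCode
  constructor
  · rintro ⟨h1, h2⟩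
    exact ⟨h1, (coprime_iff _ _ h1).mpr h2⟩
  · rintro ⟨h1, h2⟩
    exact ⟨h1, (coprime_iff _ _ h1).mp h2⟩

/-- how many codes lie below `z` -/
noncomputable def cnt (z : ℕ) : ℕ :=
  (List.range z).countP (fun y => @decide (isCode y) (Classical.propDecidable _))

theorem ecode_eq_cnt (q : ℚ) : ecode q = cnt (ccode q) := by
  rw [ecode_eq]
  unfold cnt
  apply List.countP_congr
  intro y _
  simp only [decide_eq_true_eq]
  exact (isCode_iff y).symm

theorem prim_cnt : Primrec cnt := by
  classical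
  have h1 : Primrec fun z : ℕ => List.filter (fun y => @decide (isCode y) (Classical.propDecidable _))
      (List.range z) :=
    (Primrec.listFilter prim_isCode).comp Primrec.list_range
  refine (Primrec.list_length.comp h1).of_eq fun z => ?_
  unfold cnt
  rw [List.countP_eq_length_filter]

/-- finding the value of a total computable function by search -/
theorem computable_find {α : Type*} [Primcodable α] (b : α → ℕ → Bool) (hb : Computable₂ b)
    (g : α → ℕ) (h1 : ∀ a, b a (g a) = true) (h2 : ∀ a n, n < g a → b a n = false) :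
    Computable g := by
  have hp : Partrec₂ (fun (a : α) (n : ℕ) => (Part.some (b a n) : Part Bool)) := hb.partrec₂
  refine (Partrec.rfind hp).of_eq_tot fun a => ?_
  rw [Nat.mem_rfind]
  refine ⟨by simp [h1], fun {m} hm => ?_⟩
  simp [h2 a m hm]

/-- the code of the `n`-th rational number -/
def nthCode (n : ℕ) : ℕ := ccode (Denumerable.ofNat ℚ n)

theorem computable_nthCode : Computable nthCode := by
  classical
  refine computable_find (fun n z => decide (isCode z ∧ cnt z = n)) ?_ nthCode ?_ ?_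
  · have : PrimrecPred fun p : ℕ × ℕ => isCode p.2 ∧ cnt p.2 = p.1 :=
      (prim_isCode.comp Primrec.snd).and
        (Primrec.eq.comp (prim_cnt.comp Primrec.snd) Primrec.fst)
    exact (this.decide).to_comp
  · intro n
    simp only [decide_eq_true_eq]
    refine ⟨(isCode_iff _).mpr ⟨_, rfl⟩, ?_⟩
    unfold nthCode
    rw [← ecode_eq_cnt]
    exact Denumerable.encode_ofNat n
  · intro n z hz
    simp only [decide_eq_false_iff_not, not_and]
    intro hc hcnt
    obtain ⟨q, rfl⟩ := (isCode_iff _).mp hc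
    rw [← ecode_eq_cnt] at hcnt
    have : q = Denumerable.ofNat ℚ n := by
      rw [← hcnt]
      exact (Denumerable.ofNat_encode q).symm
    subst this
    exact lt_irrefl _ hz

/-- from the code of a rational to the triple -/
def fromCode (y : ℕ) : QQ :=
  (if y.unpair.1 % 2 = 0 then y.unpair.1 / 2 else 0,
   if y.unpair.1 % 2 = 0 then 0 else (y.unpair.1 + 1) / 2,
   y.unpair.2 - 1)

theorem prim_fromCode : Primrec fromCode := by
  unfold fromCode
  have h1 : Primrec fun y : ℕ => y.unpair.1 := Primrec.fst.comp Primrec.unpair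
  have h2 : Primrec fun y : ℕ => y.unpair.2 := Primrec.snd.comp Primrec.unpair
  have h3 : PrimrecPred fun y : ℕ => y.unpair.1 % 2 = 0 :=
    Primrec.eq.comp (Primrec.nat_mod.comp h1 (Primrec.const 2)) (Primrec.const 0)
  refine prim_triple (Primrec.ite h3 (prim_div h1 (Primrec.const 2)) (Primrec.const 0))
    (Primrec.ite h3 (Primrec.const 0) (prim_div (prim_succ h1) (Primrec.const 2)))
    (prim_sub h2 (Primrec.const 1))

/-- A triple for each rational. -/
def ofRat (q : ℚ) : QQ := fromCode (ccode q)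

theorem val_ofRat (q : ℚ) : val (ofRat q) = q := by
  unfold ofRat fromCode
  rw [ccode_eq]
  simp only [Nat.unpair_pair]
  rw [encode_int]
  unfold val
  have hd : ((q.den - 1 : ℕ) : ℚ) + 1 = q.den := by
    have := q.den_pos
    have e : q.den - 1 + 1 = q.den := by omega
    exact_mod_cast e
  simp only [hd]
  by_cases hz : 0 ≤ q.num
  · rw [if_pos hz]
    have e1 : (2 * q.num.toNat) % 2 = 0 := by omega
    rw [if_pos e1, if_pos e1]
    have e2 : 2 * q.num.toNat / 2 = q.num.toNat := by omega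
    rw [e2]
    have e3 : ((q.num.toNat : ℕ) : ℚ) = (q.num : ℚ) := by
      have : ((q.num.toNat : ℤ)) = q.num := Int.toNat_of_nonneg hz
      exact_mod_cast this
    rw [e3]
    simp only [Nat.cast_zero, sub_zero]
    exact Rat.num_div_den q
  · rw [if_neg hz]
    have e1 : ¬ (2 * (-q.num - 1).toNat + 1) % 2 = 0 := by omega
    rw [if_neg e1, if_neg e1]
    have e2 : (2 * (-q.num - 1).toNat + 1 + 1) / 2 = (-q.num - 1).toNat + 1 := by omega
    rw [e2]
    have e3 : (((-q.num - 1).toNat + 1 : ℕ) : ℚ) = - (q.num : ℚ) := by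
      have h0 : 0 ≤ -q.num - 1 := by omega
      have : (((-q.num - 1).toNat : ℤ)) = -q.num - 1 := Int.toNat_of_nonneg h0
      have h1 : (((-q.num - 1).toNat + 1 : ℕ) : ℤ) = -q.num := by
        push_cast; omega
      exact_mod_cast h1
    rw [e3]
    simp only [Nat.cast_zero, zero_sub, neg_neg]
    exact Rat.num_div_den q

theorem computable_ecode : Computable ecode := Computable.encode

theorem nthCode_ecode (q : ℚ) : nthCode (ecode q) = ccode q := by
  unfold nthCode
  have : Denumerable.ofNat ℚ (ecode q) = q := Denumerable.ofNat_encode q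
  rw [this]

theorem computable_ofRat : Computable ofRat := by
  have h2 : Computable fun q : ℚ => fromCode (nthCode (ecode q)) :=
    prim_fromCode.to_comp.comp (computable_nthCode.comp computable_ecode)
  refine h2.of_eq fun q => ?_
  rw [nthCode_ecode]
  rfl

/-- The triple of the `n`-th rational. -/
def qOfN (n : ℕ) : QQ := fromCode (nthCode n)

theorem computable_qOfN : Computable qOfN :=
  prim_fromCode.to_comp.comp computable_nthCode

theorem val_qOfN (n : ℕ) : val (qOfN n) = Denumerable.ofNat ℚ n := val_ofRat _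

theorem ecode_ofNat (n : ℕ) : ecode (Denumerable.ofNat ℚ n) = n := Denumerable.encode_ofNat n

theorem ofNat_ecode (q : ℚ) : Denumerable.ofNat ℚ (ecode q) = q := Denumerable.ofNat_encode q

/-- equality test for triples -/
def qeqb (x y : QQ) : Bool := decide (qle x y) && decide (qle y x)

theorem qeqb_iff (x y : QQ) : qeqb x y = true ↔ val x = val y := by
  unfold qeqb
  simp only [Bool.and_eq_true, decide_eq_true_eq, qle_iff]
  exact ⟨fun h => le_antisymm h.1 h.2, fun h => ⟨h.le, h.ge⟩⟩

theorem prim_qeqb : Primrec₂ qeqb := by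
  unfold Primrec₂
  unfold qeqb
  exact Primrec.and.comp (prim_qle Primrec.fst Primrec.snd).decide
    (prim_qle Primrec.snd Primrec.fst).decide

/-- The value of a triple, as a computable function to `ℚ`. -/
theorem computable_val : Computable val := by
  have hb : Computable₂ (fun (x : QQ) (n : ℕ) => qeqb x (qOfN n)) :=
    prim_qeqb.to_comp.comp Computable.fst (computable_qOfN.comp Computable.snd)
  have hg : Computable fun x : QQ => ecode (val x) := by
    refine computable_find _ hb _ ?_ ?_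
    · intro x
      rw [qeqb_iff, val_qOfN, ofNat_ecode]
    · intro x n hn
      by_contra hne
      have h1 : qeqb x (qOfN n) = true := by simpa using hne
      rw [qeqb_iff, val_qOfN] at h1
      rw [h1, ecode_ofNat] at hn
      exact lt_irrefl _ hn
  exact Computable.encode_iff.mp hg

end Crest.Agent.Lib.BoxFlow
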