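import Mathlib

set_option autoImplicit false

/-!
The derivatives of `Real.smoothTransition` as explicit polynomial expressions.
-/

namespace Crest.Agent.Lib.BoxFlow

open scoped ContDiff
open Real

/-- Abbreviation for the smooth transition. -/
noncomputable abbrev st : ℝ → ℝ := Real.smoothTransition

theorem st_contDiff : ContDiff ℝ ∞ st := by
  have : ContDiff ℝ ((⊤ : ℕ∞) : WithTop ℕ∞) Real.smoothTransition := Real.smoothTransition.contDiff
  exact this

theorem st_eq {y : ℝ} (h0 : 0 < y) (h1 : y < 1) :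
    st y = exp (-y⁻¹) / (exp (-y⁻¹) + exp (-(1 - y)⁻¹)) := by
  have e1 : expNegInvGlue y = exp (-y⁻¹) := by
    unfold expNegInvGlue
    rw [if_neg (not_le.mpr h0)]
  have e2 : expNegInvGlue (1 - y) = exp (-(1 - y)⁻¹) := by
    unfold expNegInvGlue
    rw [if_neg (not_le.mpr (by linarith))]
  unfold st Real.smoothTransition
  rw [e1, e2]

theorem st_hasDerivAt {y : ℝ} (h0 : 0 < y) (h1 : y < 1) :
    HasDerivAt st (((y⁻¹) ^ 2 + ((1 - y)⁻¹) ^ 2) * st y * (1 - st y)) y := by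
  have hy : y ≠ 0 := h0.ne'
  have hy1 : 1 - y ≠ 0 := by intro h; linarith
  have hw : HasDerivAt (fun z : ℝ => exp (-z⁻¹)) (exp (-y⁻¹) * ((y⁻¹) ^ 2)) y := by
    have h1' : HasDerivAt (fun z : ℝ => -z⁻¹) (-(-(y ^ 2)⁻¹)) y := (hasDerivAt_inv hy).fun_neg
    have h := h1'.exp
    refine h.congr_deriv ?_
    rw [neg_neg, inv_pow]
  have hg : HasDerivAt (fun z : ℝ => exp (-(1 - z)⁻¹)) (exp (-(1 - y)⁻¹) * (-((1 - y)⁻¹) ^ 2)) y := by
    have hh : HasDerivAt (fun z : ℝ => 1 - z) (-1) y := by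
      simpa using (hasDerivAt_id y).const_sub (1 : ℝ)
    have h2 : HasDerivAt (fun z : ℝ => (1 - z)⁻¹) (-((1 - y) ^ 2)⁻¹ * (-1)) y :=
      (hasDerivAt_inv hy1).comp y hh
    have h3 : HasDerivAt (fun z : ℝ => -(1 - z)⁻¹) (-(-((1 - y) ^ 2)⁻¹ * (-1))) y :=
      h2.fun_neg
    have h := h3.exp
    refine h.congr_deriv ?_
    rw [inv_pow]
    ring
  set W := exp (-y⁻¹) with hW
  set G := exp (-(1 - y)⁻¹) with hG
  have hWpos : 0 < W := exp_pos _
  have hGpos : 0 < G := exp_pos _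
  have hq := hw.fun_div (hw.fun_add hg) (by positivity)
  have hev : st =ᶠ[nhds y] (fun z => exp (-z⁻¹) / (exp (-z⁻¹) + exp (-(1 - z)⁻¹))) := by
    have hmem : Set.Ioo (0 : ℝ) 1 ∈ nhds y := Ioo_mem_nhds h0 h1
    filter_upwards [hmem] with z hz using st_eq hz.1 hz.2
  have key := hq.congr_of_eventuallyEq hev
  refine key.congr_deriv ?_
  rw [st_eq h0 h1, ← hW, ← hG]
  field_simp
  ring

theorem inv_pow_hasDerivAt (a : ℕ) {y : ℝ} (h0 : y ≠ 0) :
    HasDerivAt (fun z : ℝ => (z⁻¹) ^ a) (-(a : ℝ) * (y⁻¹) ^ (a + 1)) y := by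
  cases a with
  | zero => simpa using hasDerivAt_const y (1 : ℝ)
  | succ a =>
    have h := (hasDerivAt_inv h0).fun_pow (a + 1)
    refine h.congr_deriv ?_
    simp only [Nat.add_sub_cancel, inv_pow]
    push_cast
    field_simp
    ring

theorem inv1_pow_hasDerivAt (b : ℕ) {y : ℝ} (h1 : 1 - y ≠ 0) :
    HasDerivAt (fun z : ℝ => ((1 - z)⁻¹) ^ b) ((b : ℝ) * ((1 - y)⁻¹) ^ (b + 1)) y := by
  cases b with
  | zero => simpa using hasDerivAt_const y (1 : ℝ)
  | succ b =>
    have hh : HasDerivAt (fun z : ℝ => 1 - z) (-1) y := by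
      simpa using (hasDerivAt_id y).const_sub (1 : ℝ)
    have h2 : HasDerivAt (fun z : ℝ => (1 - z)⁻¹) (-((1 - y) ^ 2)⁻¹ * (-1)) y :=
      (hasDerivAt_inv h1).comp y hh
    have h := h2.fun_pow (b + 1)
    refine h.congr_deriv ?_
    simp only [Nat.add_sub_cancel, inv_pow]
    push_cast
    field_simp
    ring

theorem st_pow_hasDerivAt (e : ℕ) {y : ℝ} (h0 : 0 < y) (h1 : y < 1) :
    HasDerivAt (fun z : ℝ => (st z) ^ e)
      ((e : ℝ) * ((y⁻¹) ^ 2 + ((1 - y)⁻¹) ^ 2) * (st y) ^ e * (1 - st y)) y := by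
  cases e with
  | zero => simpa using hasDerivAt_const y (1 : ℝ)
  | succ e =>
    have h := (st_hasDerivAt h0 h1).fun_pow (e + 1)
    refine h.congr_deriv ?_
    simp only [Nat.add_sub_cancel]
    push_cast
    ring

theorem one_sub_st_pow_hasDerivAt (f : ℕ) {y : ℝ} (h0 : 0 < y) (h1 : y < 1) :
    HasDerivAt (fun z : ℝ => (1 - st z) ^ f)
      (-(f : ℝ) * ((y⁻¹) ^ 2 + ((1 - y)⁻¹) ^ 2) * (st y) * (1 - st y) ^ f) y := by
  cases f with
  | zero => simpa using hasDerivAt_const y (1 : ℝ)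
  | succ f =>
    have h1' : HasDerivAt (fun z : ℝ => 1 - st z)
        (-(((y⁻¹) ^ 2 + ((1 - y)⁻¹) ^ 2) * st y * (1 - st y))) y :=
      (st_hasDerivAt h0 h1).const_sub (1 : ℝ)
    have h := h1'.fun_pow (f + 1)
    refine h.congr_deriv ?_
    simp only [Nat.add_sub_cancel]
    push_cast
    ring

/-- A term: sign, coefficient and exponents of `y⁻¹`, `(1-y)⁻¹`, `st y`, `1 - st y`. -/
abbrev Term := Bool × ℕ × ℕ × ℕ × ℕ × ℕ

/-- The value of a sign -/
def sgn (b : Bool) : ℝ := if b then -1 else 1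

/-- The value of a term at `y`, as a function of the four ingredients. -/
noncomputable def tform (t : Term) (u v s : ℝ) : ℝ :=
  sgn t.1 * t.2.1 * u ^ t.2.2.1 * v ^ t.2.2.2.1 * s ^ t.2.2.2.2.1 * (1 - s) ^ t.2.2.2.2.2

/-- The value of a term at `y`. -/
noncomputable def tval (t : Term) (y : ℝ) : ℝ := tform t (y⁻¹) ((1 - y)⁻¹) (st y)

/-- The derivative of a term. -/
def Dterm (t : Term) : List Term :=
  [(!t.1, t.2.1 * t.2.2.1, t.2.2.1 + 1, t.2.2.2.1, t.2.2.2.2.1, t.2.2.2.2.2),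
   (t.1, t.2.1 * t.2.2.2.1, t.2.2.1, t.2.2.2.1 + 1, t.2.2.2.2.1, t.2.2.2.2.2),
   (t.1, t.2.1 * t.2.2.2.2.1, t.2.2.1 + 2, t.2.2.2.1, t.2.2.2.2.1, t.2.2.2.2.2 + 1),
   (t.1, t.2.1 * t.2.2.2.2.1, t.2.2.1, t.2.2.2.1 + 2, t.2.2.2.2.1, t.2.2.2.2.2 + 1),
   (!t.1, t.2.1 * t.2.2.2.2.2, t.2.2.1 + 2, t.2.2.2.1, t.2.2.2.2.1 + 1, t.2.2.2.2.2),
   (!t.1, t.2.1 * t.2.2.2.2.2, t.2.2.1, t.2.2.2.1 + 2, t.2.2.2.2.1 + 1, t.2.2.2.2.2)]

/-- The value of a list of terms. -/
noncomputable def evalL (l : List Term) (u v s : ℝ) : ℝ :=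
  l.foldr (fun t acc => tform t u v s + acc) 0

@[simp] theorem evalL_nil (u v s : ℝ) : evalL [] u v s = 0 := rfl
@[simp] theorem evalL_cons (t : Term) (l : List Term) (u v s : ℝ) :
    evalL (t :: l) u v s = tform t u v s + evalL l u v s := rfl

theorem evalL_append (l₁ l₂ : List Term) (u v s : ℝ) :
    evalL (l₁ ++ l₂) u v s = evalL l₁ u v s + evalL l₂ u v s := by
  induction l₁ with
  | nil => simp
  | cons t l ih => simp [ih, add_assoc]

theorem sgn_not (b : Bool) : sgn (!b) = - sgn b := by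
  cases b <;> simp [sgn]

theorem tval_hasDerivAt (t : Term) {y : ℝ} (h0 : 0 < y) (h1 : y < 1) :
    HasDerivAt (tval t) (evalL (Dterm t) (y⁻¹) ((1 - y)⁻¹) (st y)) y := by
  obtain ⟨n, c, a, b, e, f⟩ := t
  have hy : y ≠ 0 := h0.ne'
  have hy1 : 1 - y ≠ 0 := by intro h; linarith
  have h := ((((hasDerivAt_const y (sgn n * (c : ℝ))).fun_mul (inv_pow_hasDerivAt a hy)).fun_mul
    (inv1_pow_hasDerivAt b hy1)).fun_mul (st_pow_hasDerivAt e h0 h1)).fun_mul
    (one_sub_st_pow_hasDerivAt f h0 h1)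
  have hfun : tval (n, c, a, b, e, f) = fun z : ℝ =>
      sgn n * (c : ℝ) * (z⁻¹) ^ a * ((1 - z)⁻¹) ^ b * (st z) ^ e * (1 - st z) ^ f := by
    funext z
    simp [tval, tform]
  rw [hfun]
  refine h.congr_deriv ?_
  simp only [Dterm, evalL_cons, evalL_nil, tform, sgn_not]
  push_cast
  ring

/-- The polynomial expression of the `k`-th derivative. -/
def Pk : ℕ → List Term
  | 0 => [(false, 1, 0, 0, 1, 0)]
  | k + 1 => (Pk k).flatMap Dterm

theorem evalL_hasDerivAt (l : List Term) {y : ℝ} (h0 : 0 < y) (h1 : y < 1) :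
    HasDerivAt (fun z => evalL l (z⁻¹) ((1 - z)⁻¹) (st z))
      (evalL (l.flatMap Dterm) (y⁻¹) ((1 - y)⁻¹) (st y)) y := by
  induction l with
  | nil => simpa using hasDerivAt_const y (0 : ℝ)
  | cons t l ih =>
    have h := (tval_hasDerivAt t h0 h1).fun_add ih
    simp only [List.flatMap_cons, evalL_append]
    exact h

theorem iteratedDeriv_st_eq (k : ℕ) {y : ℝ} (h0 : 0 < y) (h1 : y < 1) :
    iteratedDeriv k st y = evalL (Pk k) (y⁻¹) ((1 - y)⁻¹) (st y) := by
  induction k generalizing y with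
  | zero =>
    simp [Pk, tform, sgn]
  | succ k ih =>
    rw [iteratedDeriv_succ]
    have hev : iteratedDeriv k st =ᶠ[nhds y] fun z => evalL (Pk k) (z⁻¹) ((1 - z)⁻¹) (st z) := by
      filter_upwards [Ioo_mem_nhds h0 h1] with z hz using ih hz.1 hz.2
    rw [hev.deriv_eq, (evalL_hasDerivAt (Pk k) h0 h1).deriv]
    rfl

theorem iteratedDeriv_st_of_nonpos (k : ℕ) {y : ℝ} (hy : y ≤ 0) : iteratedDeriv k st y = 0 := by
  have hcont : Continuous (iteratedDeriv k st) :=
    st_contDiff.continuous_iteratedDeriv k (by exact_mod_cast le_top)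
  have hclosed : IsClosed {z | iteratedDeriv k st z = 0} := isClosed_eq hcont continuous_const
  have hsub : Set.Iio (0 : ℝ) ⊆ {z | iteratedDeriv k st z = 0} := by
    intro z hz
    have hev : st =ᶠ[nhds z] (fun _ => 0) := by
      filter_upwards [Iio_mem_nhds hz] with w hw
      exact Real.smoothTransition.zero_of_nonpos (le_of_lt hw)
    show iteratedDeriv k st z = 0
    rw [hev.iteratedDeriv_eq]
    simp
  have := closure_minimal hsub hclosed
  rw [closure_Iio] at this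
  exact this hy

theorem iteratedDeriv_st_of_one_le (k : ℕ) {y : ℝ} (hy : 1 ≤ y) :
    iteratedDeriv k st y = if k = 0 then 1 else 0 := by
  cases k with
  | zero =>
    simp only [iteratedDeriv_zero, if_true]
    exact Real.smoothTransition.one_of_one_le hy
  | succ k =>
    simp only [Nat.add_eq_zero_iff, one_ne_zero, and_false, if_false]
    have hcont : Continuous (iteratedDeriv (k + 1) st) :=
      st_contDiff.continuous_iteratedDeriv (k + 1) (by exact_mod_cast le_top)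
    have hclosed : IsClosed {z | iteratedDeriv (k + 1) st z = 0} :=
      isClosed_eq hcont continuous_const
    have hsub : Set.Ioi (1 : ℝ) ⊆ {z | iteratedDeriv (k + 1) st z = 0} := by
      intro z hz
      have hev : st =ᶠ[nhds z] (fun _ => 1) := by
        filter_upwards [Ioi_mem_nhds hz] with w hw
        exact Real.smoothTransition.one_of_one_le (le_of_lt hw)
      show iteratedDeriv (k + 1) st z = 0
      rw [hev.iteratedDeriv_eq]
      simp only [iteratedDeriv_const]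
      simp
    have := closure_minimal hsub hclosed
    rw [closure_Ioi] at this
    exact this hy

/-! ### Bounds -/

/-- A bound for a term. -/
def tbound (t : Term) : ℕ :=
  t.2.1 * (8 * Nat.factorial t.2.2.1 * Nat.factorial t.2.2.2.1 * 2 ^ t.2.2.1 * 2 ^ t.2.2.2.1)

/-- A bound for a list of terms -/
def lbound (l : List Term) : ℕ := l.foldr (fun t acc => tbound t + acc) 0

/-- All terms with non-zero coefficient have positive exponents of `st y`, `1 - st y`. -/
def Good (l : List Term) : Prop := ∀ t ∈ l, t.2.1 ≠ 0 → 1 ≤ t.2.2.2.2.1 ∧ 1 ≤ t.2.2.2.2.2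

theorem good_flatMap {l : List Term} (h : Good l) : Good (l.flatMap Dterm) := by
  intro t ht hc
  simp only [List.mem_flatMap] at ht
  obtain ⟨t₀, ht₀, ht⟩ := ht
  have hg := h t₀ ht₀
  simp only [Dterm, List.mem_cons, List.not_mem_nil, or_false] at ht
  rcases ht with rfl | rfl | rfl | rfl | rfl | rfl <;> simp only at hc ⊢ <;>
    · have h1 : t₀.2.1 ≠ 0 := fun h0 => hc (by simp [h0])
      have := hg h1
      omega

theorem good_Pk (k : ℕ) : Good (Pk (k + 1)) := by
  induction k with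
  | zero =>
    intro t ht hc
    simp only [Pk, List.flatMap_cons, List.flatMap_nil, List.append_nil, Dterm,
      List.mem_cons, List.not_mem_nil, or_false] at ht
    rcases ht with rfl | rfl | rfl | rfl | rfl | rfl <;> simp at hc ⊢
  | succ k ih => exact good_flatMap ih

theorem exp_two_lt_eight : exp 2 < 8 := by
  have h : exp 2 = exp 1 * exp 1 := by rw [← exp_add]; norm_num
  rw [h]
  have h1 := exp_one_lt_d9
  have h2 := exp_pos 1
  nlinarith

theorem pow_mul_exp_neg_le (a : ℕ) {u : ℝ} (hu : 0 ≤ u) : u ^ a * exp (-u) ≤ a.factorial := by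
  have h := Real.pow_div_factorial_le_exp u hu a
  have hf : (0 : ℝ) < a.factorial := by positivity
  rw [div_le_iff₀ hf] at h
  rw [exp_neg, ← div_eq_mul_inv, div_le_iff₀ (exp_pos u)]
  linarith [mul_comm (a.factorial : ℝ) (exp u)]

theorem st_nonneg (y : ℝ) : 0 ≤ st y := Real.smoothTransition.nonneg y
theorem st_le_one (y : ℝ) : st y ≤ 1 := Real.smoothTransition.le_one y

theorem mono_bound (a b e f : ℕ) (he : 1 ≤ e) (hf : 1 ≤ f) {y : ℝ} (h0 : 0 < y) (h1 : y < 1) :
    (y⁻¹) ^ a * ((1 - y)⁻¹) ^ b * (st y) ^ e * (1 - st y) ^ f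
      ≤ 8 * a.factorial * b.factorial * 2 ^ a * 2 ^ b := by
  have hs0 := st_nonneg y
  have hs1 := st_le_one y
  have hr0 : 0 ≤ 1 - st y := by linarith
  have hu : 0 < y⁻¹ := inv_pos.mpr h0
  have hv : 0 < (1 - y)⁻¹ := inv_pos.mpr (by linarith)
  have hse : (st y) ^ e ≤ st y := by
    calc (st y) ^ e ≤ (st y) ^ 1 := pow_le_pow_of_le_one hs0 hs1 he
      _ = st y := pow_one _
  have hrf : (1 - st y) ^ f ≤ 1 - st y := by
    calc (1 - st y) ^ f ≤ (1 - st y) ^ 1 := pow_le_pow_of_le_one hr0 (by linarith) hf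
      _ = 1 - st y := pow_one _
  have hstep : (y⁻¹) ^ a * ((1 - y)⁻¹) ^ b * (st y) ^ e * (1 - st y) ^ f
      ≤ (y⁻¹) ^ a * ((1 - y)⁻¹) ^ b * (st y) * (1 - st y) := by
    gcongr
  refine hstep.trans ?_
  set W := exp (-y⁻¹) with hW
  set G := exp (-(1 - y)⁻¹) with hG
  have hWpos : 0 < W := exp_pos _
  have hGpos : 0 < G := exp_pos _
  have hsval : st y = W / (W + G) := st_eq h0 h1
  have hrval : 1 - st y = G / (W + G) := by rw [hsval]; field_simp; ring
  have fa : (1 : ℝ) ≤ a.factorial := by exact_mod_cast Nat.factorial_pos a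
  have fb : (1 : ℝ) ≤ b.factorial := by exact_mod_cast Nat.factorial_pos b
  have p2a : (1 : ℝ) ≤ 2 ^ a := one_le_pow₀ (by norm_num)
  have p2b : (1 : ℝ) ≤ 2 ^ b := one_le_pow₀ (by norm_num)
  rcases le_total y (1 / 2) with hy | hy
  · -- small y: `st y` is small
    have hv2 : (1 - y)⁻¹ ≤ 2 := by
      rw [inv_le_comm₀ (by linarith) (by norm_num)]
      linarith
    have hsmall : st y ≤ exp 2 * W := by
      rw [hsval, div_le_iff₀ (by positivity)]
      have hG' : 1 ≤ exp 2 * G := by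
        rw [hG, ← exp_add]
        apply one_le_exp
        linarith
      nlinarith [mul_pos (exp_pos 2) (mul_pos hWpos hWpos), mul_le_mul_of_nonneg_left hG' hWpos.le]
    have h3 : (y⁻¹) ^ a * st y ≤ 8 * a.factorial := by
      calc (y⁻¹) ^ a * st y ≤ (y⁻¹) ^ a * (exp 2 * W) := by gcongr
        _ = exp 2 * ((y⁻¹) ^ a * W) := by ring
        _ ≤ 8 * a.factorial := by
            have := pow_mul_exp_neg_le a hu.le
            have h8 := exp_two_lt_eight
            have hp : 0 ≤ (y⁻¹) ^ a * W := by positivity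
            calc exp 2 * ((y⁻¹) ^ a * W) ≤ 8 * ((y⁻¹) ^ a * W) := by gcongr
              _ ≤ 8 * a.factorial := by gcongr
    have h4 : ((1 - y)⁻¹) ^ b ≤ 2 ^ b := by gcongr
    calc (y⁻¹) ^ a * ((1 - y)⁻¹) ^ b * st y * (1 - st y)
        = ((y⁻¹) ^ a * st y) * ((1 - y)⁻¹) ^ b * (1 - st y) := by ring
      _ ≤ (8 * a.factorial) * 2 ^ b * 1 := by
          gcongr
          linarith
      _ ≤ 8 * a.factorial * b.factorial * 2 ^ a * 2 ^ b := by
          have : (0 : ℝ) < 8 * a.factorial * 2 ^ b := by positivity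
          nlinarith [mul_le_mul fb p2a (by norm_num) (by positivity : (0 : ℝ) ≤ b.factorial)]
  · -- large y: `1 - st y` is small
    have hu2 : y⁻¹ ≤ 2 := by
      rw [inv_le_comm₀ (by linarith) (by norm_num)]
      linarith
    have hsmall : 1 - st y ≤ exp 2 * G := by
      rw [hrval, div_le_iff₀ (by positivity)]
      have hW' : 1 ≤ exp 2 * W := by
        rw [hW, ← exp_add]
        apply one_le_exp
        linarith
      nlinarith [mul_pos (exp_pos 2) (mul_pos hGpos hGpos), mul_le_mul_of_nonneg_left hW' hGpos.le]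
    have h3 : ((1 - y)⁻¹) ^ b * (1 - st y) ≤ 8 * b.factorial := by
      calc ((1 - y)⁻¹) ^ b * (1 - st y) ≤ ((1 - y)⁻¹) ^ b * (exp 2 * G) := by gcongr
        _ = exp 2 * (((1 - y)⁻¹) ^ b * G) := by ring
        _ ≤ 8 * b.factorial := by
            have := pow_mul_exp_neg_le b hv.le
            have h8 := exp_two_lt_eight
            have hp : 0 ≤ ((1 - y)⁻¹) ^ b * G := by positivity
            calc exp 2 * (((1 - y)⁻¹) ^ b * G) ≤ 8 * (((1 - y)⁻¹) ^ b * G) := by gcongr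
              _ ≤ 8 * b.factorial := by gcongr
    have h4 : (y⁻¹) ^ a ≤ 2 ^ a := by gcongr
    calc (y⁻¹) ^ a * ((1 - y)⁻¹) ^ b * st y * (1 - st y)
        = (y⁻¹) ^ a * (((1 - y)⁻¹) ^ b * (1 - st y)) * st y := by ring
      _ ≤ 2 ^ a * (8 * b.factorial) * 1 := by
          gcongr
      _ ≤ 8 * a.factorial * b.factorial * 2 ^ a * 2 ^ b := by
          have : (0 : ℝ) < 8 * b.factorial * 2 ^ a := by positivity
          nlinarith [mul_le_mul fa p2b (by norm_num) (by positivity : (0 : ℝ) ≤ a.factorial)]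

theorem abs_sgn (b : Bool) : |sgn b| = 1 := by
  cases b <;> simp [sgn]

theorem tform_bound (t : Term) (ht : t.2.1 ≠ 0 → 1 ≤ t.2.2.2.2.1 ∧ 1 ≤ t.2.2.2.2.2) {y : ℝ}
    (h0 : 0 < y) (h1 : y < 1) :
    |tform t (y⁻¹) ((1 - y)⁻¹) (st y)| ≤ tbound t := by
  obtain ⟨n, c, a, b, e, f⟩ := t
  by_cases hc : c = 0
  · simp [tform, tbound, hc]
  obtain ⟨he, hf⟩ := ht hc
  simp only at he hf
  have hs0 := st_nonneg y
  have hs1 := st_le_one y
  have hr0 : 0 ≤ 1 - st y := by linarith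
  have hu : 0 < y⁻¹ := inv_pos.mpr h0
  have hv : 0 < (1 - y)⁻¹ := inv_pos.mpr (by linarith)
  have hm := mono_bound a b e f he hf h0 h1
  have hpos : 0 ≤ (y⁻¹) ^ a * ((1 - y)⁻¹) ^ b * (st y) ^ e * (1 - st y) ^ f := by positivity
  simp only [tform, tbound]
  have e1 : sgn n * (c : ℝ) * (y⁻¹) ^ a * ((1 - y)⁻¹) ^ b * (st y) ^ e * (1 - st y) ^ f
      = sgn n * ((c : ℝ) * ((y⁻¹) ^ a * ((1 - y)⁻¹) ^ b * (st y) ^ e * (1 - st y) ^ f)) := by ring
  rw [e1, abs_mul, abs_sgn, one_mul, abs_of_nonneg (by positivity)]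
  push_cast
  gcongr

theorem evalL_bound (l : List Term) (hl : Good l) {y : ℝ} (h0 : 0 < y) (h1 : y < 1) :
    |evalL l (y⁻¹) ((1 - y)⁻¹) (st y)| ≤ lbound l := by
  induction l with
  | nil => simp [lbound]
  | cons t l ih =>
    have h2 := tform_bound t (hl t (by simp)) h0 h1
    have h3 := ih (fun s hs => hl s (List.mem_cons_of_mem _ hs))
    rw [evalL_cons]
    have e : ((lbound (t :: l) : ℕ) : ℝ) = tbound t + lbound l := by
      simp [lbound]
    rw [e]
    exact (abs_add_le _ _).trans (add_le_add h2 h3)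

/-- The bound for derivatives of the transition function. -/
def Bst (k : ℕ) : ℕ := lbound (Pk k) + 1

theorem iteratedDeriv_st_bound (k : ℕ) (y : ℝ) : |iteratedDeriv k st y| ≤ Bst k := by
  unfold Bst
  push_cast
  have hl : (0 : ℝ) ≤ lbound (Pk k) := Nat.cast_nonneg _
  rcases le_or_gt y 0 with h0 | h0
  · rw [iteratedDeriv_st_of_nonpos k h0]
    simp only [abs_zero]
    linarith
  rcases le_or_gt 1 y with h1 | h1
  · rw [iteratedDeriv_st_of_one_le k h1]
    split_ifs <;> simp <;> linarith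
  cases k with
  | zero =>
    simp only [iteratedDeriv_zero]
    rw [abs_of_nonneg (st_nonneg y)]
    have := st_le_one y
    linarith
  | succ k =>
    rw [iteratedDeriv_st_eq (k + 1) h0 h1]
    have := evalL_bound (Pk (k + 1)) (good_Pk k) h0 h1
    linarith

end Crest.Agent.Lib.BoxFlow
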