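import Crest.Agent.Lib.BoxFlow.CR
import Crest.Agent.Lib.BoxFlow.StepDeriv

set_option autoImplicit false

/-!
`Real.smoothTransition` is an effective function.
-/

namespace Crest.Agent.Lib.BoxFlow

open scoped ContDiff
open Real

/-! ### Approximating the exponential -/

theorem pow_sub_pow_le_of_le {p q : ℝ} (hp : 0 ≤ p) (hpq : p ≤ q) (hq : q ≤ 1) (N : ℕ) :
    0 ≤ q ^ N - p ^ N ∧ q ^ N - p ^ N ≤ N * (q - p) := by
  induction N with
  | zero => simp
  | succ N ih =>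
    have h1 : p ^ (N + 1) ≤ q ^ (N + 1) := pow_le_pow_left₀ hp hpq _
    refine ⟨by linarith, ?_⟩
    have hq0 : 0 ≤ q := hp.trans hpq
    have e : q ^ (N + 1) - p ^ (N + 1) = q * (q ^ N - p ^ N) + p ^ N * (q - p) := by ring
    rw [e]
    have h2 : q * (q ^ N - p ^ N) ≤ 1 * (q ^ N - p ^ N) := by
      apply mul_le_mul_of_nonneg_right hq ih.1
    have h3 : p ^ N * (q - p) ≤ 1 * (q - p) := by
      apply mul_le_mul_of_nonneg_right _ (by linarith)
      exact pow_le_one₀ hp (hpq.trans hq)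
    push_cast
    nlinarith [ih.2]

theorem exp_approx (a : ℝ) (ha : 0 ≤ a) (N : ℕ) (hN : a ≤ N) (hNpos : 0 < N) :
    0 ≤ (1 - a / N) ^ N ∧ |exp (-a) - (1 - a / N) ^ N| ≤ a ^ 2 / N := by
  have hN' : (0 : ℝ) < N := by exact_mod_cast hNpos
  set x : ℝ := a / N with hx
  have hx0 : 0 ≤ x := by positivity
  have hx1 : x ≤ 1 := by
    rw [hx, div_le_one hN']
    exact hN
  have hp : 0 ≤ 1 - x := by linarith
  have hpq : 1 - x ≤ exp (-x) := by
    have := add_one_le_exp (-x)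
    linarith
  have hq1 : exp (-x) ≤ 1 := by
    rw [exp_le_one_iff]
    linarith
  refine ⟨pow_nonneg hp _, ?_⟩
  have hqN : exp (-x) ^ N = exp (-a) := by
    rw [← exp_nat_mul]
    congr 1
    rw [hx]
    field_simp
  have hmain := pow_sub_pow_le_of_le hp hpq hq1 N
  rw [hqN] at hmain
  rw [abs_of_nonneg hmain.1]
  refine hmain.2.trans ?_
  have hq2 : exp (-x) ≤ 1 / (1 + x) := by
    rw [exp_neg, le_div_iff₀ (by linarith)]
    rw [inv_mul_le_iff₀ (exp_pos x)]
    have := add_one_le_exp x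
    linarith
  have hq3 : exp (-x) - (1 - x) ≤ x ^ 2 := by
    have h4 : 1 / (1 + x) - (1 - x) ≤ x ^ 2 := by
      have hpos : 0 < 1 + x := by linarith
      rw [div_sub' hpos.ne', div_le_iff₀ hpos]
      nlinarith [mul_nonneg hx0 (sq_nonneg x)]
    linarith
  calc (N : ℝ) * (exp (-x) - (1 - x)) ≤ N * x ^ 2 := by gcongr
    _ = a ^ 2 / N := by
      rw [hx]
      field_simp

/-- Number of factors -/
def expN (a : QQ) (n : ℕ) : ℕ := qceil (qmul (qmul a a) (qnat (n + 1))) + qceil a + 1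

/-- Approximation of `exp (-a)`, `a ≥ 0`. -/
def expA (a : QQ) (n : ℕ) : QQ := qpow (qsub (qnat 1) (qdiv a (qnat (expN a n)))) (expN a n)

theorem val_expA (a : QQ) (n : ℕ) :
    (val (expA a n) : ℝ) = (1 - (val a : ℝ) / (expN a n : ℝ)) ^ (expN a n) := by
  simp only [expA, val_qpow, val_qsub, val_qnat, val_qdiv]
  push_cast
  simp

theorem expA_spec (a : QQ) (ha : 0 ≤ val a) (n : ℕ) :
    0 ≤ (val (expA a n) : ℝ) ∧ |exp (-(val a : ℝ)) - (val (expA a n) : ℝ)| ≤ 1 / ((n : ℝ) + 1) := by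
  have ha' : (0 : ℝ) ≤ (val a : ℝ) := by exact_mod_cast ha
  have h1 : (val a : ℝ) ≤ qceil a := by
    have := val_le_qceil a
    exact_mod_cast this
  have h2 : (val a : ℝ) ^ 2 * ((n : ℝ) + 1) ≤ qceil (qmul (qmul a a) (qnat (n + 1))) := by
    have := val_le_qceil (qmul (qmul a a) (qnat (n + 1)))
    simp only [val_qmul, val_qnat] at this
    have h' : ((val a * val a * ((n + 1 : ℕ) : ℚ) : ℚ) : ℝ)
        ≤ ((qceil (qmul (qmul a a) (qnat (n + 1))) : ℕ) : ℝ) := by
      exact_mod_cast this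
    push_cast at h'
    calc (val a : ℝ) ^ 2 * ((n : ℝ) + 1) = (val a : ℝ) * (val a : ℝ) * ((n : ℝ) + 1) := by ring
      _ ≤ _ := h'
  have hNeq : ((expN a n : ℕ) : ℝ) = (qceil (qmul (qmul a a) (qnat (n + 1))) : ℝ) + qceil a + 1 := by
    simp [expN]
  have hc0 : (0 : ℝ) ≤ qceil a := Nat.cast_nonneg _
  have hc1 : (0 : ℝ) ≤ (qceil (qmul (qmul a a) (qnat (n + 1))) : ℝ) := Nat.cast_nonneg _
  have hNa : (val a : ℝ) ≤ expN a n := by
    rw [hNeq]; linarith
  have hNpos : 0 < expN a n := by simp [expN]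
  have hNpos' : (0 : ℝ) < expN a n := by exact_mod_cast hNpos
  have := exp_approx (val a : ℝ) ha' (expN a n) hNa hNpos
  rw [val_expA]
  refine ⟨this.1, this.2.trans ?_⟩
  rw [div_le_div_iff₀ hNpos' (by positivity)]
  rw [hNeq]
  nlinarith

theorem one_div_one_add_sub_le {e e' : ℝ} (he : 0 ≤ e) (he' : 0 ≤ e') :
    |1 / (1 + e) - 1 / (1 + e')| ≤ |e - e'| := by
  have h1 : 0 < 1 + e := by linarith
  have h2 : 0 < 1 + e' := by linarith
  have : 1 / (1 + e) - 1 / (1 + e') = (e' - e) / ((1 + e) * (1 + e')) := by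
    field_simp
    ring
  rw [this, abs_div, abs_sub_comm, abs_of_pos (mul_pos h1 h2)]
  rw [div_le_iff₀ (mul_pos h1 h2)]
  have h3 : 0 ≤ |e - e'| := abs_nonneg _
  nlinarith [mul_nonneg he he']

/-! ### Approximating `st` -/

/-- `y⁻¹ - (1 - y)⁻¹`. -/
def rhoQ (y : QQ) : QQ := qsub (qinv y) (qinv (qsub (qnat 1) y))

/-- Approximation of `st y`. -/
def sigmaA (y : QQ) (n : ℕ) : QQ :=
  if qle (qnat 0) (rhoQ y) then qsub (qnat 1) (qinv (qadd (qnat 1) (expA (rhoQ y) n)))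
  else qinv (qadd (qnat 1) (expA (qneg (rhoQ y)) n))

theorem st_eq_rho {y : ℝ} (h0 : 0 < y) (h1 : y < 1) :
    st y = 1 / (1 + exp (y⁻¹ - (1 - y)⁻¹)) := by
  have h2 := exp_pos y⁻¹
  have h3 := exp_pos (1 - y)⁻¹
  rw [st_eq h0 h1, exp_sub, exp_neg (1 - y)⁻¹, exp_neg y⁻¹]
  field_simp

theorem sigmaA_spec (y : QQ) (h0 : 0 < val y) (h1 : val y < 1) (n : ℕ) :
    (0 : ℝ) ≤ (val (sigmaA y n) : ℝ) ∧ (val (sigmaA y n) : ℝ) ≤ 1 ∧
      |st (val y : ℝ) - (val (sigmaA y n) : ℝ)| ≤ 1 / ((n : ℝ) + 1) := by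
  have h0' : (0 : ℝ) < (val y : ℝ) := by exact_mod_cast h0
  have h1' : (val y : ℝ) < 1 := by exact_mod_cast h1
  have hst := st_eq_rho h0' h1'
  have hrho : ((val (rhoQ y) : ℚ) : ℝ) = (val y : ℝ)⁻¹ - (1 - (val y : ℝ))⁻¹ := by
    simp [rhoQ]
  unfold sigmaA
  split_ifs with hc
  · rw [qle_iff, val_qnat] at hc
    have hc' : (0 : ℝ) ≤ (val (rhoQ y) : ℝ) := by exact_mod_cast (by simpa using hc)
    obtain ⟨he0, he⟩ := expA_spec (rhoQ y) (by simpa using hc) n
    have hval : ((val (qsub (qnat 1) (qinv (qadd (qnat 1) (expA (rhoQ y) n)))) : ℚ) : ℝ)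
        = 1 - 1 / (1 + (val (expA (rhoQ y) n) : ℝ)) := by
      simp
    rw [hval]
    have hpos : 0 < 1 + (val (expA (rhoQ y) n) : ℝ) := by linarith
    have hle : 1 / (1 + (val (expA (rhoQ y) n) : ℝ)) ≤ 1 := by
      rw [div_le_one hpos]; linarith
    have hge : 0 ≤ 1 / (1 + (val (expA (rhoQ y) n) : ℝ)) := by positivity
    refine ⟨by linarith, by linarith, ?_⟩
    rw [hst, ← hrho]
    have hkey : 1 / (1 + exp (val (rhoQ y) : ℝ)) = 1 - 1 / (1 + exp (-(val (rhoQ y) : ℝ))) := by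
      rw [exp_neg]
      have := exp_pos ((val (rhoQ y) : ℝ))
      field_simp
      ring
    rw [hkey]
    have h3 := one_div_one_add_sub_le (exp_pos (-(val (rhoQ y) : ℝ))).le he0
    have e : 1 - 1 / (1 + exp (-(val (rhoQ y) : ℝ))) - (1 - 1 / (1 + (val (expA (rhoQ y) n) : ℝ)))
        = -(1 / (1 + exp (-(val (rhoQ y) : ℝ))) - 1 / (1 + (val (expA (rhoQ y) n) : ℝ))) := by ring
    rw [e, abs_neg]
    exact h3.trans he
  · rw [qle_iff, val_qnat] at hc
    have hc0 : val (rhoQ y) < 0 := by simpa using hc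
    have hc' : 0 ≤ val (qneg (rhoQ y)) := by
      rw [val_qneg]; linarith
    obtain ⟨he0, he⟩ := expA_spec (qneg (rhoQ y)) hc' n
    have hval : ((val (qinv (qadd (qnat 1) (expA (qneg (rhoQ y)) n))) : ℚ) : ℝ)
        = 1 / (1 + (val (expA (qneg (rhoQ y)) n) : ℝ)) := by
      simp
    rw [hval]
    have hpos : 0 < 1 + (val (expA (qneg (rhoQ y)) n) : ℝ) := by linarith
    have hle : 1 / (1 + (val (expA (qneg (rhoQ y)) n) : ℝ)) ≤ 1 := by
      rw [div_le_one hpos]; linarith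
    have hge : 0 ≤ 1 / (1 + (val (expA (qneg (rhoQ y)) n) : ℝ)) := by positivity
    refine ⟨hge, hle, ?_⟩
    rw [hst, ← hrho]
    have hkey : (val (rhoQ y) : ℝ) = -((val (qneg (rhoQ y)) : ℚ) : ℝ) := by
      simp
    rw [hkey]
    have h3 := one_div_one_add_sub_le (exp_pos (-(val (qneg (rhoQ y)) : ℝ))).le he0
    exact h3.trans he

/-! ### Exact evaluation of the polynomial expressions -/

/-- The term as a rational computation. -/
def tQ (t : Term) (u v s : QQ) : QQ :=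
  qmul (qmul (qmul (qmul (qmul (cond t.1 (qneg (qnat 1)) (qnat 1)) (qnat t.2.1)) (qpow u t.2.2.1))
    (qpow v t.2.2.2.1)) (qpow s t.2.2.2.2.1)) (qpow (qsub (qnat 1) s) t.2.2.2.2.2)

theorem val_tQ (t : Term) (u v s : QQ) :
    ((val (tQ t u v s) : ℚ) : ℝ) = tform t (val u : ℝ) (val v : ℝ) (val s : ℝ) := by
  obtain ⟨n, c, a, b, e, f⟩ := t
  cases n <;> simp [tQ, tform, sgn]

/-- A list of terms as a rational computation. -/
def evalQ (l : List Term) (u v s : QQ) : QQ :=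
  l.foldr (fun t acc => qadd (tQ t u v s) acc) (qnat 0)

theorem val_evalQ (l : List Term) (u v s : QQ) :
    ((val (evalQ l u v s) : ℚ) : ℝ) = evalL l (val u : ℝ) (val v : ℝ) (val s : ℝ) := by
  induction l with
  | nil => simp [evalQ]
  | cons t l ih =>
    have : evalQ (t :: l) u v s = qadd (tQ t u v s) (evalQ l u v s) := rfl
    rw [this, val_qadd]
    push_cast
    rw [ih, val_tQ]
    rfl

/-- Lipschitz constant of a term. -/
def tlip (t : Term) (u v : QQ) : QQ :=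
  qmul (qmul (qmul (qnat t.2.1) (qpow u t.2.2.1)) (qpow v t.2.2.2.1))
    (qnat (t.2.2.2.2.1 + t.2.2.2.2.2))

/-- Lipschitz constant of a list of terms. -/
def lipL (l : List Term) (u v : QQ) : QQ :=
  l.foldr (fun t acc => qadd (tlip t u v) acc) (qnat 0)

theorem abs_pow_sub_pow_le_of_unit {s σ : ℝ} (h0 : 0 ≤ s) (h1 : s ≤ 1) (h0' : 0 ≤ σ) (h1' : σ ≤ 1)
    (e : ℕ) : |s ^ e - σ ^ e| ≤ e * |s - σ| := by
  induction e with
  | zero => simp
  | succ e ih =>
    have he : s ^ (e + 1) - σ ^ (e + 1) = s * (s ^ e - σ ^ e) + σ ^ e * (s - σ) := by ring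
    rw [he]
    refine (abs_add_le _ _).trans ?_
    rw [abs_mul, abs_mul, abs_of_nonneg h0, abs_of_nonneg (pow_nonneg h0' e)]
    have h2 : s * |s ^ e - σ ^ e| ≤ 1 * (e * |s - σ|) :=
      mul_le_mul h1 ih (abs_nonneg _) (by norm_num)
    have h3 : σ ^ e * |s - σ| ≤ 1 * |s - σ| :=
      mul_le_mul_of_nonneg_right (pow_le_one₀ h0' h1') (abs_nonneg _)
    push_cast
    linarith

theorem abs_mono_sub_le {s σ : ℝ} (h0 : 0 ≤ s) (h1 : s ≤ 1) (h0' : 0 ≤ σ) (h1' : σ ≤ 1) (e f : ℕ) :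
    |s ^ e * (1 - s) ^ f - σ ^ e * (1 - σ) ^ f| ≤ ((e : ℝ) + f) * |s - σ| := by
  have h2 := abs_pow_sub_pow_le_of_unit h0 h1 h0' h1' e
  have h3 := abs_pow_sub_pow_le_of_unit (s := 1 - s) (σ := 1 - σ) (by linarith) (by linarith)
    (by linarith) (by linarith) f
  have e1 : (1 - s) - (1 - σ) = -(s - σ) := by ring
  rw [e1, abs_neg] at h3
  have he : s ^ e * (1 - s) ^ f - σ ^ e * (1 - σ) ^ f
      = (s ^ e - σ ^ e) * (1 - s) ^ f + σ ^ e * ((1 - s) ^ f - (1 - σ) ^ f) := by ring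
  rw [he]
  refine (abs_add_le _ _).trans ?_
  rw [abs_mul, abs_mul, abs_of_nonneg (pow_nonneg (by linarith : 0 ≤ 1 - s) f),
    abs_of_nonneg (pow_nonneg h0' e)]
  have h4 : |s ^ e - σ ^ e| * (1 - s) ^ f ≤ (e * |s - σ|) * 1 :=
    mul_le_mul h2 (pow_le_one₀ (by linarith) (by linarith)) (pow_nonneg (by linarith) f)
      (by positivity)
  have h5 : σ ^ e * |(1 - s) ^ f - (1 - σ) ^ f| ≤ 1 * (f * |s - σ|) :=
    mul_le_mul (pow_le_one₀ h0' h1') h3 (abs_nonneg _) (by norm_num)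
  linarith

theorem val_tlip (t : Term) (u v : QQ) :
    ((val (tlip t u v) : ℚ) : ℝ) = (t.2.1 : ℝ) * (val u : ℝ) ^ t.2.2.1 * (val v : ℝ) ^ t.2.2.2.1 *
      ((t.2.2.2.2.1 : ℝ) + t.2.2.2.2.2) := by
  simp [tlip]

theorem tform_lip (t : Term) {u v s σ : ℝ} (hu : 0 ≤ u) (hv : 0 ≤ v)
    (h0 : 0 ≤ s) (h1 : s ≤ 1) (h0' : 0 ≤ σ) (h1' : σ ≤ 1) :
    |tform t u v s - tform t u v σ| ≤
      (t.2.1 : ℝ) * u ^ t.2.2.1 * v ^ t.2.2.2.1 * ((t.2.2.2.2.1 : ℝ) + t.2.2.2.2.2) * |s - σ| := by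
  obtain ⟨n, c, a, b, e, f⟩ := t
  simp only [tform]
  have e1 : sgn n * (c : ℝ) * u ^ a * v ^ b * s ^ e * (1 - s) ^ f
      - sgn n * (c : ℝ) * u ^ a * v ^ b * σ ^ e * (1 - σ) ^ f
      = sgn n * ((c : ℝ) * u ^ a * v ^ b * (s ^ e * (1 - s) ^ f - σ ^ e * (1 - σ) ^ f)) := by ring
  rw [e1, abs_mul, abs_sgn, one_mul, abs_mul, abs_of_nonneg (by positivity : (0 : ℝ) ≤ (c : ℝ) * u ^ a * v ^ b)]
  have := abs_mono_sub_le h0 h1 h0' h1' e f
  calc (c : ℝ) * u ^ a * v ^ b * |s ^ e * (1 - s) ^ f - σ ^ e * (1 - σ) ^ f|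
      ≤ (c : ℝ) * u ^ a * v ^ b * (((e : ℝ) + f) * |s - σ|) := by gcongr
    _ = _ := by ring

theorem evalL_lip (l : List Term) (u v : QQ) (hu : 0 ≤ val u) (hv : 0 ≤ val v) {s σ : ℝ}
    (h0 : 0 ≤ s) (h1 : s ≤ 1) (h0' : 0 ≤ σ) (h1' : σ ≤ 1) :
    |evalL l (val u : ℝ) (val v : ℝ) s - evalL l (val u : ℝ) (val v : ℝ) σ|
      ≤ ((val (lipL l u v) : ℚ) : ℝ) * |s - σ| := by
  have hu' : (0 : ℝ) ≤ (val u : ℝ) := by exact_mod_cast hu
  have hv' : (0 : ℝ) ≤ (val v : ℝ) := by exact_mod_cast hv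
  induction l with
  | nil => simp [lipL]
  | cons t l ih =>
    have e : lipL (t :: l) u v = qadd (tlip t u v) (lipL l u v) := rfl
    rw [e, val_qadd, evalL_cons, evalL_cons]
    push_cast
    rw [val_tlip]
    have h2 := tform_lip t hu' hv' h0 h1 h0' h1'
    have e2 : tform t (val u : ℝ) (val v : ℝ) s + evalL l (val u : ℝ) (val v : ℝ) s
        - (tform t (val u : ℝ) (val v : ℝ) σ + evalL l (val u : ℝ) (val v : ℝ) σ)
        = (tform t (val u : ℝ) (val v : ℝ) s - tform t (val u : ℝ) (val v : ℝ) σ)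
          + (evalL l (val u : ℝ) (val v : ℝ) s - evalL l (val u : ℝ) (val v : ℝ) σ) := by ring
    rw [e2, add_mul]
    exact (abs_add_le _ _).trans (add_le_add h2 ih)

/-- The approximation of all derivatives of `st`. -/
def stepA (p : ℕ × QQ) (n : ℕ) : QQ :=
  if qle p.2 (qnat 0) then qnat 0
  else if qle (qnat 1) p.2 then (if p.1 = 0 then qnat 1 else qnat 0)
  else evalQ (Pk p.1) (qinv p.2) (qinv (qsub (qnat 1) p.2))
    (sigmaA p.2 (qceil (lipL (Pk p.1) (qinv p.2) (qinv (qsub (qnat 1) p.2))) * (n + 1)))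

theorem stepA_spec (p : ℕ × QQ) (n : ℕ) :
    |iteratedDeriv p.1 st (val p.2 : ℝ) - (val (stepA p n) : ℝ)| ≤ 1 / ((n : ℝ) + 1) := by
  obtain ⟨k, y⟩ := p
  have hpos : (0 : ℝ) ≤ 1 / ((n : ℝ) + 1) := by positivity
  simp only [stepA]
  split_ifs with h0 h1 hk
  · rw [qle_iff, val_qnat] at h0
    have h0' : (val y : ℝ) ≤ 0 := by exact_mod_cast (by simpa using h0)
    rw [iteratedDeriv_st_of_nonpos k h0']
    simpa using hpos
  · rw [qle_iff, val_qnat] at h1
    have h1' : (1 : ℝ) ≤ (val y : ℝ) := by exact_mod_cast (by simpa using h1)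
    rw [iteratedDeriv_st_of_one_le k h1', if_pos hk]
    simpa using hpos
  · rw [qle_iff, val_qnat] at h1
    have h1' : (1 : ℝ) ≤ (val y : ℝ) := by exact_mod_cast (by simpa using h1)
    rw [iteratedDeriv_st_of_one_le k h1', if_neg hk]
    simpa using hpos
  · rw [qle_iff, val_qnat] at h0 h1
    have h00 : 0 < val y := by simpa using h0
    have h11 : val y < 1 := by simpa using h1
    have h0' : (0 : ℝ) < (val y : ℝ) := by exact_mod_cast h00
    have h1' : (val y : ℝ) < 1 := by exact_mod_cast h11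
    rw [iteratedDeriv_st_eq k h0' h1', val_evalQ]
    have hu : ((val (qinv y) : ℚ) : ℝ) = (val y : ℝ)⁻¹ := by simp
    have hv : ((val (qinv (qsub (qnat 1) y)) : ℚ) : ℝ) = (1 - (val y : ℝ))⁻¹ := by simp
    rw [hu, hv]
    set L := lipL (Pk k) (qinv y) (qinv (qsub (qnat 1) y)) with hL
    obtain ⟨hs0, hs1, hs⟩ := sigmaA_spec y h00 h11 (qceil L * (n + 1))
    have hu0 : 0 ≤ val (qinv y) := by
      rw [val_qinv]; exact (inv_pos.mpr h00).le
    have hv0 : 0 ≤ val (qinv (qsub (qnat 1) y)) := by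
      rw [val_qinv, val_qsub, val_qnat]
      push_cast
      exact (inv_pos.mpr (by linarith)).le
    have hlip := evalL_lip (Pk k) (qinv y) (qinv (qsub (qnat 1) y)) hu0 hv0 (st_nonneg (val y : ℝ))
      (st_le_one _) hs0 hs1
    rw [hu, hv] at hlip
    refine hlip.trans ?_
    have hLb : ((val L : ℚ) : ℝ) ≤ qceil L := by
      have := val_le_qceil L
      exact_mod_cast this
    have hc0 : (0 : ℝ) ≤ (qceil L : ℝ) := Nat.cast_nonneg _
    have hfin : (qceil L : ℝ) * (1 / (((qceil L * (n + 1) : ℕ) : ℝ) + 1)) ≤ 1 / ((n : ℝ) + 1) := by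
      push_cast
      rw [mul_one_div, div_le_div_iff₀ (by positivity) (by positivity)]
      nlinarith
    have habs := abs_nonneg (st (val y : ℝ) - (val (sigmaA y (qceil L * (n + 1))) : ℝ))
    calc ((val L : ℚ) : ℝ) * |st (val y : ℝ) - (val (sigmaA y (qceil L * (n + 1))) : ℝ)|
        ≤ (qceil L : ℝ) * |st (val y : ℝ) - (val (sigmaA y (qceil L * (n + 1))) : ℝ)| := by
          gcongr
      _ ≤ (qceil L : ℝ) * (1 / (((qceil L * (n + 1) : ℕ) : ℝ) + 1)) := by
          gcongr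
      _ ≤ _ := hfin

/-! ### Primitive recursiveness -/

section Prim

variable {α : Type*} [Primcodable α]

theorem prim_expN {f : α → QQ} {g : α → ℕ} (hf : Primrec f) (hg : Primrec g) :
    Primrec fun a => expN (f a) (g a) :=
  prim_succ (prim_add (prim_qceil (prim_qmul (prim_qmul hf hf) (prim_qnat (prim_succ hg))))
    (prim_qceil hf))

theorem prim_expA {f : α → QQ} {g : α → ℕ} (hf : Primrec f) (hg : Primrec g) :
    Primrec fun a => expA (f a) (g a) :=
  prim_qpow (prim_qsub (Primrec.const _) (prim_qdiv hf (prim_qnat (prim_expN hf hg))))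
    (prim_expN hf hg)

theorem prim_rhoQ {f : α → QQ} (hf : Primrec f) : Primrec fun a => rhoQ (f a) :=
  prim_qsub (prim_qinv hf) (prim_qinv (prim_qsub (Primrec.const _) hf))

theorem prim_sigmaA {f : α → QQ} {g : α → ℕ} (hf : Primrec f) (hg : Primrec g) :
    Primrec fun a => sigmaA (f a) (g a) := by
  have h : Primrec fun a => if qle (qnat 0) (rhoQ (f a))
      then qsub (qnat 1) (qinv (qadd (qnat 1) (expA (rhoQ (f a)) (g a))))
      else qinv (qadd (qnat 1) (expA (qneg (rhoQ (f a))) (g a))) :=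
    Primrec.ite (prim_qle (Primrec.const _) (prim_rhoQ hf))
      (prim_qsub (Primrec.const _) (prim_qinv (prim_qadd (Primrec.const _)
        (prim_expA (prim_rhoQ hf) hg))))
      (prim_qinv (prim_qadd (Primrec.const _) (prim_expA (prim_qneg (prim_rhoQ hf)) hg)))
  exact h

theorem prim_tQ {ft : α → Term} {fu fv fs : α → QQ} (ht : Primrec ft) (hu : Primrec fu)
    (hv : Primrec fv) (hs : Primrec fs) : Primrec fun a => tQ (ft a) (fu a) (fv a) (fs a) := by
  have h1 : Primrec fun a => (ft a).1 := Primrec.fst.comp ht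
  have h2 : Primrec fun a => (ft a).2.1 := Primrec.fst.comp (Primrec.snd.comp ht)
  have h3 : Primrec fun a => (ft a).2.2.1 := Primrec.fst.comp (Primrec.snd.comp (Primrec.snd.comp ht))
  have h4 : Primrec fun a => (ft a).2.2.2.1 :=
    Primrec.fst.comp (Primrec.snd.comp (Primrec.snd.comp (Primrec.snd.comp ht)))
  have h5 : Primrec fun a => (ft a).2.2.2.2.1 :=
    Primrec.fst.comp (Primrec.snd.comp (Primrec.snd.comp (Primrec.snd.comp (Primrec.snd.comp ht))))
  have h6 : Primrec fun a => (ft a).2.2.2.2.2 :=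
    Primrec.snd.comp (Primrec.snd.comp (Primrec.snd.comp (Primrec.snd.comp (Primrec.snd.comp ht))))
  have hc : Primrec fun a => cond (ft a).1 (qneg (qnat 1)) (qnat 1) :=
    Primrec.cond h1 (Primrec.const _) (Primrec.const _)
  exact prim_qmul (prim_qmul (prim_qmul (prim_qmul (prim_qmul hc (prim_qnat h2)) (prim_qpow hu h3))
    (prim_qpow hv h4)) (prim_qpow hs h5)) (prim_qpow (prim_qsub (Primrec.const _) hs) h6)

theorem prim_tlip {ft : α → Term} {fu fv : α → QQ} (ht : Primrec ft) (hu : Primrec fu)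
    (hv : Primrec fv) : Primrec fun a => tlip (ft a) (fu a) (fv a) := by
  have h2 : Primrec fun a => (ft a).2.1 := Primrec.fst.comp (Primrec.snd.comp ht)
  have h3 : Primrec fun a => (ft a).2.2.1 := Primrec.fst.comp (Primrec.snd.comp (Primrec.snd.comp ht))
  have h4 : Primrec fun a => (ft a).2.2.2.1 :=
    Primrec.fst.comp (Primrec.snd.comp (Primrec.snd.comp (Primrec.snd.comp ht)))
  have h5 : Primrec fun a => (ft a).2.2.2.2.1 :=
    Primrec.fst.comp (Primrec.snd.comp (Primrec.snd.comp (Primrec.snd.comp (Primrec.snd.comp ht))))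
  have h6 : Primrec fun a => (ft a).2.2.2.2.2 :=
    Primrec.snd.comp (Primrec.snd.comp (Primrec.snd.comp (Primrec.snd.comp (Primrec.snd.comp ht))))
  exact prim_qmul (prim_qmul (prim_qmul (prim_qnat h2) (prim_qpow hu h3)) (prim_qpow hv h4))
    (prim_qnat (prim_add h5 h6))

theorem prim_evalQ {fl : α → List Term} {fu fv fs : α → QQ} (hl : Primrec fl) (hu : Primrec fu)
    (hv : Primrec fv) (hs : Primrec fs) : Primrec fun a => evalQ (fl a) (fu a) (fv a) (fs a) := by
  have hh0 : Primrec fun y : α × (Term × QQ) => qadd (tQ y.2.1 (fu y.1) (fv y.1) (fs y.1)) y.2.2 :=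
    prim_qadd (prim_tQ (Primrec.fst.comp Primrec.snd) (hu.comp Primrec.fst)
      (hv.comp Primrec.fst) (hs.comp Primrec.fst)) (Primrec.snd.comp Primrec.snd)
  have hh : Primrec₂ fun (a : α) (x : Term × QQ) => qadd (tQ x.1 (fu a) (fv a) (fs a)) x.2 :=
    hh0.to₂
  exact Primrec.list_foldr hl (Primrec.const _) hh

theorem prim_lipL {fl : α → List Term} {fu fv : α → QQ} (hl : Primrec fl) (hu : Primrec fu)
    (hv : Primrec fv) : Primrec fun a => lipL (fl a) (fu a) (fv a) := by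
  have hh0 : Primrec fun y : α × (Term × QQ) => qadd (tlip y.2.1 (fu y.1) (fv y.1)) y.2.2 :=
    prim_qadd (prim_tlip (Primrec.fst.comp Primrec.snd) (hu.comp Primrec.fst)
      (hv.comp Primrec.fst)) (Primrec.snd.comp Primrec.snd)
  have hh : Primrec₂ fun (a : α) (x : Term × QQ) => qadd (tlip x.1 (fu a) (fv a)) x.2 :=
    hh0.to₂
  exact Primrec.list_foldr hl (Primrec.const _) hh

theorem prim_Dterm : Primrec Dterm := by
  have h1 : Primrec fun t : Term => t.1 := Primrec.fst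
  have h2 : Primrec fun t : Term => t.2.1 := Primrec.fst.comp Primrec.snd
  have h3 : Primrec fun t : Term => t.2.2.1 := Primrec.fst.comp (Primrec.snd.comp Primrec.snd)
  have h4 : Primrec fun t : Term => t.2.2.2.1 :=
    Primrec.fst.comp (Primrec.snd.comp (Primrec.snd.comp Primrec.snd))
  have h5 : Primrec fun t : Term => t.2.2.2.2.1 :=
    Primrec.fst.comp (Primrec.snd.comp (Primrec.snd.comp (Primrec.snd.comp Primrec.snd)))
  have h6 : Primrec fun t : Term => t.2.2.2.2.2 :=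
    Primrec.snd.comp (Primrec.snd.comp (Primrec.snd.comp (Primrec.snd.comp Primrec.snd)))
  have hn : Primrec fun t : Term => !t.1 := Primrec.not.comp h1
  have mk : ∀ {fa : Term → Bool} {fb fc fd fe ff : Term → ℕ}, Primrec fa → Primrec fb → Primrec fc →
      Primrec fd → Primrec fe → Primrec ff →
      Primrec fun t => ((fa t, fb t, fc t, fd t, fe t, ff t) : Term) := by
    intro fa fb fc fd fe ff ha hb hc hd he hf
    exact ha.pair (hb.pair (hc.pair (hd.pair (he.pair hf))))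
  have c2 : ∀ k : ℕ, Primrec fun _ : Term => k := fun k => Primrec.const k
  have p1 := mk hn (prim_mul h2 h3) (prim_add h3 (c2 1)) h4 h5 h6
  have p2 := mk h1 (prim_mul h2 h4) h3 (prim_add h4 (c2 1)) h5 h6
  have p3 := mk h1 (prim_mul h2 h5) (prim_add h3 (c2 2)) h4 h5 (prim_add h6 (c2 1))
  have p4 := mk h1 (prim_mul h2 h5) h3 (prim_add h4 (c2 2)) h5 (prim_add h6 (c2 1))
  have p5 := mk hn (prim_mul h2 h6) (prim_add h3 (c2 2)) h4 (prim_add h5 (c2 1)) h6
  have p6 := mk hn (prim_mul h2 h6) h3 (prim_add h4 (c2 2)) (prim_add h5 (c2 1)) h6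
  have n0 : Primrec fun _ : Term => ([] : List Term) := Primrec.const _
  exact Primrec.list_cons.comp p1 (Primrec.list_cons.comp p2 (Primrec.list_cons.comp p3
    (Primrec.list_cons.comp p4 (Primrec.list_cons.comp p5 (Primrec.list_cons.comp p6 n0)))))

theorem prim_Pk : Primrec Pk := by
  have hs0 : Primrec fun y : ℕ × List Term => y.2.flatMap Dterm :=
    Primrec.list_flatMap Primrec.snd (prim_Dterm.comp (Primrec.snd (α := ℕ × List Term) (β := Term))).to₂
  have hs : Primrec₂ fun (_ : ℕ) (ih : List Term) => ih.flatMap Dterm := hs0.to₂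
  have h := Primrec.nat_rec₁ ([(false, 1, 0, 0, 1, 0)] : List Term) hs
  refine h.of_eq fun k => ?_
  induction k with
  | zero => rfl
  | succ k ih => simp only [Pk]; rw [← ih]

theorem prim_stepA : Primrec fun x : (ℕ × QQ) × ℕ => stepA x.1 x.2 := by
  have hk : Primrec fun x : (ℕ × QQ) × ℕ => x.1.1 := Primrec.fst.comp Primrec.fst
  have hy : Primrec fun x : (ℕ × QQ) × ℕ => x.1.2 := Primrec.snd.comp Primrec.fst
  have hn : Primrec fun x : (ℕ × QQ) × ℕ => x.2 := Primrec.snd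
  have hu : Primrec fun x : (ℕ × QQ) × ℕ => qinv x.1.2 := prim_qinv hy
  have hv : Primrec fun x : (ℕ × QQ) × ℕ => qinv (qsub (qnat 1) x.1.2) :=
    prim_qinv (prim_qsub (Primrec.const _) hy)
  have hP : Primrec fun x : (ℕ × QQ) × ℕ => Pk x.1.1 := prim_Pk.comp hk
  have hL := prim_lipL hP hu hv
  have hs := prim_sigmaA hy (prim_mul (prim_qceil hL) (prim_succ hn))
  have hE := prim_evalQ hP hu hv hs
  have hz : PrimrecPred fun x : (ℕ × QQ) × ℕ => x.1.1 = 0 :=
    Primrec.eq.comp hk (Primrec.const 0)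
  have hif : Primrec fun x : (ℕ × QQ) × ℕ => if x.1.1 = 0 then qnat 1 else qnat 0 :=
    Primrec.ite hz (Primrec.const _) (Primrec.const _)
  have h := Primrec.ite (prim_qle hy (Primrec.const (qnat 0))) (Primrec.const (qnat 0))
    (Primrec.ite (prim_qle (Primrec.const (qnat 1)) hy) hif hE)
  exact h

theorem prim_tbound : Primrec tbound := by
  have h2 : Primrec fun t : Term => t.2.1 := Primrec.fst.comp Primrec.snd
  have h3 : Primrec fun t : Term => t.2.2.1 := Primrec.fst.comp (Primrec.snd.comp Primrec.snd)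
  have h4 : Primrec fun t : Term => t.2.2.2.1 :=
    Primrec.fst.comp (Primrec.snd.comp (Primrec.snd.comp Primrec.snd))
  have hfac : Primrec Nat.factorial := by
    have hs0 : Primrec fun y : ℕ × ℕ => (y.1 + 1) * y.2 :=
      prim_mul (prim_succ Primrec.fst) Primrec.snd
    have h := Primrec.nat_rec₁ (f := fun k ih => (k + 1) * ih) 1 hs0.to₂
    refine h.of_eq fun k => ?_
    induction k with
    | zero => rfl
    | succ k ih => simp only [Nat.factorial_succ]; rw [← ih]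
  have hp : Primrec fun k : ℕ => 2 ^ k := by
    have hs0 : Primrec fun y : ℕ × ℕ => y.2 * 2 := prim_mul Primrec.snd (Primrec.const 2)
    have h := Primrec.nat_rec₁ (f := fun _ ih => ih * 2) 1 hs0.to₂
    refine h.of_eq fun k => ?_
    induction k with
    | zero => rfl
    | succ k ih => simp only [pow_succ]; rw [← ih]
  exact prim_mul h2 (prim_mul (prim_mul (prim_mul (prim_mul (Primrec.const 8) (hfac.comp h3))
    (hfac.comp h4)) (hp.comp h3)) (hp.comp h4))

theorem prim_lbound : Primrec lbound := by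
  have hh0 : Primrec fun y : List Term × (Term × ℕ) => tbound y.2.1 + y.2.2 :=
    prim_add (prim_tbound.comp (Primrec.fst.comp Primrec.snd)) (Primrec.snd.comp Primrec.snd)
  have hh : Primrec₂ fun (_ : List Term) (x : Term × ℕ) => tbound x.1 + x.2 := hh0.to₂
  exact Primrec.list_foldr Primrec.id (Primrec.const 0) hh

theorem prim_Bst : Primrec Bst := prim_succ (prim_lbound.comp prim_Pk)

end Prim

theorem effFun_st : EffFun st :=
  ⟨st_contDiff, ⟨stepA, (prim_stepA.to_comp).to₂, fun p n => stepA_spec p n⟩,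
    Bst, prim_Bst.to_comp, iteratedDeriv_st_bound⟩

end Crest.Agent.Lib.BoxFlow
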