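import Crest.Agent.Lib.BoxFlow.StepEff
import Crest.Prelude.Def_BoxFlow

set_option autoImplicit false

/-!
Velocity fields which are finite sums of products of functions of one variable times constant
vectors: their mixed derivatives and their effectiveness.
-/

namespace Crest.Agent.Lib.BoxFlow

open scoped ContDiff
open Crest.AnalysisR.BoxFlow

/-- The coordinates of space-time. -/
noncomputable def stProj (i : Fin 4) : (ℝ × (Fin 3 → ℝ)) →L[ℝ] ℝ :=
  if h : i = 0 then ContinuousLinearMap.fst ℝ ℝ (Fin 3 → ℝ)
  else (ContinuousLinearMap.proj (i.pred h)).comp (ContinuousLinearMap.snd ℝ ℝ (Fin 3 → ℝ))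

@[simp] theorem stProj_zero (p : ℝ × (Fin 3 → ℝ)) : stProj 0 p = p.1 := by
  simp [stProj]

@[simp] theorem stProj_succ (j : Fin 3) (p : ℝ × (Fin 3 → ℝ)) : stProj j.succ p = p.2 j := by
  simp [stProj, Fin.succ_ne_zero]

theorem stProj_direction (i d : Fin 4) : stProj i (direction d) = if i = d then 1 else 0 := by
  refine Fin.cases ?_ (fun a => ?_) i
  · refine Fin.cases ?_ (fun b => ?_) d
    · simp [direction]
    · simp [direction, Fin.succ_ne_zero, (Fin.succ_ne_zero b).symm]
  · refine Fin.cases ?_ (fun b => ?_) d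
    · simp [direction, Fin.succ_ne_zero]
    · simp [direction, Fin.succ_ne_zero, Pi.single_apply, Fin.succ_inj]

/-- Product of functions of the individual coordinates. -/
noncomputable def tens (g : Fin 4 → ℝ → ℝ) (p : ℝ × (Fin 3 → ℝ)) : ℝ :=
  ∏ i : Fin 4, g i (stProj i p)

theorem tens_eq (g : Fin 4 → ℝ → ℝ) (t : ℝ) (x : Fin 3 → ℝ) :
    tens g (t, x) = g 0 t * ∏ j : Fin 3, g j.succ (x j) := by
  unfold tens
  rw [Fin.prod_univ_succ]
  simp

theorem hasFDerivAt_tens (g : Fin 4 → ℝ → ℝ) (hg : ∀ i, Differentiable ℝ (g i))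
    (p : ℝ × (Fin 3 → ℝ)) :
    HasFDerivAt (tens g)
      (∑ i : Fin 4, (∏ j ∈ Finset.univ.erase i, g j (stProj j p)) •
        ((_root_.deriv (g i) (stProj i p)) • stProj i)) p := by
  have h1 : ∀ i ∈ (Finset.univ : Finset (Fin 4)), HasFDerivAt (fun q => g i (stProj i q))
      ((_root_.deriv (g i) (stProj i p)) • stProj i) p := by
    intro i _
    have hd := ((hg i) (stProj i p)).hasDerivAt
    exact hd.comp_hasFDerivAt p (stProj i).hasFDerivAt
  exact HasFDerivAt.finsetProd h1

theorem fderiv_tens_direction (g : Fin 4 → ℝ → ℝ) (hg : ∀ i, Differentiable ℝ (g i))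
    (p : ℝ × (Fin 3 → ℝ)) (d : Fin 4) :
    fderiv ℝ (tens g) p (direction d) = tens (Function.update g d (_root_.deriv (g d))) p := by
  rw [(hasFDerivAt_tens g hg p).fderiv]
  simp only [_root_.sum_apply, _root_.smul_apply, stProj_direction,
    smul_eq_mul]
  rw [Finset.sum_eq_single d]
  · simp only [if_true, mul_one]
    unfold tens
    rw [← Finset.mul_prod_erase Finset.univ _ (Finset.mem_univ d)]
    simp only [Function.update_self]
    rw [mul_comm]
    congr 1
    refine Finset.prod_congr rfl fun j hj => ?_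
    rw [Function.update_of_ne (Finset.ne_of_mem_erase hj)]
  · intro i _ hi
    simp [hi]
  · simp

/-- Derivatives of a tuple of functions according to a list of directions. -/
noncomputable def dtuple (ds : List (Fin 4)) (f : Fin 4 → ℝ → ℝ) : Fin 4 → ℝ → ℝ :=
  fun i => iteratedDeriv (ds.count i) (f i)

theorem dtuple_nil (f : Fin 4 → ℝ → ℝ) : dtuple [] f = f := by
  funext i
  simp [dtuple]

theorem dtuple_cons (d : Fin 4) (ds : List (Fin 4)) (f : Fin 4 → ℝ → ℝ) :
    dtuple (d :: ds) f = Function.update (dtuple ds f) d (_root_.deriv (dtuple ds f d)) := by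
  funext i
  by_cases h : i = d
  · subst h
    simp [dtuple, iteratedDeriv_succ]
  · rw [Function.update_of_ne h]
    have : List.count i (d :: ds) = List.count i ds := by
      rw [List.count_cons]
      have : ¬ (d == i) = true := by
        simpa using (fun h' => h h'.symm)
      simp [this]
    simp only [dtuple, this]

theorem differentiable_dtuple (ds : List (Fin 4)) (f : Fin 4 → ℝ → ℝ)
    (hf : ∀ i, ContDiff ℝ ∞ (f i)) (i : Fin 4) : Differentiable ℝ (dtuple ds f i) :=
  (hf i).differentiable_iteratedDeriv _ (by exact_mod_cast WithTop.coe_lt_top _)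

theorem differentiable_tens (g : Fin 4 → ℝ → ℝ) (hg : ∀ i, Differentiable ℝ (g i)) :
    Differentiable ℝ (tens g) := fun p => (hasFDerivAt_tens g hg p).differentiableAt

/-- The mixed derivatives of a sum of product fields. -/
theorem mixedDeriv_sum_tens {ι : Type*} [Fintype ι] (F : ι → Fin 4 → ℝ → ℝ) (c : ι → Fin 3 → ℝ)
    (hF : ∀ s i, ContDiff ℝ ∞ (F s i)) (ds : List (Fin 4)) :
    mixedDeriv ds (fun p j => ∑ s, tens (F s) p * c s j)
      = fun p j => ∑ s, tens (dtuple ds (F s)) p * c s j := by
  induction ds with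
  | nil =>
    funext p j
    simp [mixedDeriv, dtuple_nil]
  | cons d ds ih =>
    funext p j
    simp only [mixedDeriv]
    rw [ih]
    have hd : ∀ s, Differentiable ℝ (tens (dtuple ds (F s))) := fun s =>
      differentiable_tens _ (differentiable_dtuple ds (F s) (hF s))
    have hj : ∀ j : Fin 3, HasFDerivAt (fun q => ∑ s, tens (dtuple ds (F s)) q * c s j)
        (∑ s, c s j • fderiv ℝ (tens (dtuple ds (F s))) p) p := by
      intro j
      refine HasFDerivAt.fun_sum fun s _ => ?_
      exact ((hd s) p).hasFDerivAt.mul_const (c s j)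
    have hall := hasFDerivAt_pi.mpr hj
    rw [hall.fderiv]
    simp only [ContinuousLinearMap.coe_pi', _root_.sum_apply,
      _root_.smul_apply, smul_eq_mul]
    refine Finset.sum_congr rfl fun s _ => ?_
    rw [fderiv_tens_direction _ (differentiable_dtuple ds (F s) (hF s)), dtuple_cons, mul_comm]

theorem contDiff_tens (g : Fin 4 → ℝ → ℝ) (hg : ∀ i, ContDiff ℝ ∞ (g i)) :
    ContDiff ℝ ∞ (tens g) := by
  unfold tens
  exact contDiff_prod fun i _ => (hg i).comp (stProj i).contDiff

theorem contDiff_sum_tens {ι : Type*} [Fintype ι] (F : ι → Fin 4 → ℝ → ℝ) (c : ι → Fin 3 → ℝ)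
    (hF : ∀ s i, ContDiff ℝ ∞ (F s i)) :
    ContDiff ℝ ∞ (fun p j => ∑ s, tens (F s) p * c s j : Field) := by
  rw [contDiff_pi]
  intro j
  exact ContDiff.sum fun s _ => (contDiff_tens _ (hF s)).mul contDiff_const

/-- A tuple of compactly supported functions: the product has compact support. -/
theorem hasCompactSupport_sum_tens {ι : Type*} [Fintype ι] (F : ι → Fin 4 → ℝ → ℝ)
    (c : ι → Fin 3 → ℝ) (R : ℝ) (hF : ∀ s i x, R < |x| → F s i x = 0) :
    HasCompactSupport (fun p j => ∑ s, tens (F s) p * c s j : Field) := by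
  have hK : IsCompact ((Set.Icc (-R) R) ×ˢ (Set.pi Set.univ fun _ : Fin 3 => Set.Icc (-R) R)) :=
    (isCompact_Icc).prod (isCompact_univ_pi fun _ => isCompact_Icc)
  refine HasCompactSupport.intro hK ?_
  intro p hp
  have hzero : ∀ s, tens (F s) p = 0 := by
    intro s
    unfold tens
    by_contra hne
    have hall : ∀ i, F s i (stProj i p) ≠ 0 := fun i => by
      intro h0
      exact hne (Finset.prod_eq_zero (Finset.mem_univ i) h0)
    have hle : ∀ i, |stProj i p| ≤ R := fun i => by
      by_contra hlt
      exact hall i (hF s i _ (not_le.mp hlt))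
    apply hp
    refine ⟨?_, ?_⟩
    · have := hle 0
      rw [stProj_zero] at this
      exact abs_le.mp this
    · intro j _
      have := hle j.succ
      rw [stProj_succ] at this
      exact abs_le.mp this
  funext j
  simp [hzero]

/-! ### Effectiveness -/

theorem computable_fin_fun {α σ : Type*} [Primcodable α] [Primcodable σ] {n : ℕ}
    {f : Fin n → α → σ} (hf : ∀ i, Computable (f i)) : Computable fun a => fun i => f i a := by
  refine (Computable.encode_iff).1 ?_
  have := (Computable.encode.comp (Computable.vector_ofFn hf))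
  exact this

theorem computable_nat_sum {D ι : Type*} [Primcodable D] (s : Finset ι) {F : ι → D → ℕ}
    (h : ∀ i, Computable (F i)) : Computable fun d => ∑ i ∈ s, F i d := by
  classical
  induction s using Finset.induction_on with
  | empty => simpa using Computable.const (α := D) 0
  | insert a s ha ih =>
    have := Primrec.nat_add.to_comp.comp (h a) ih
    refine this.of_eq fun d => ?_
    rw [Finset.sum_insert ha]

theorem computable_nat_prod {D ι : Type*} [Primcodable D] (s : Finset ι) {F : ι → D → ℕ}
    (h : ∀ i, Computable (F i)) : Computable fun d => ∏ i ∈ s, F i d := by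
  classical
  induction s using Finset.induction_on with
  | empty => simpa using Computable.const (α := D) 1
  | insert a s ha ih =>
    have := Primrec.nat_mul.to_comp.comp (h a) ih
    refine this.of_eq fun d => ?_
    rw [Finset.prod_insert ha]

/-- Counting occurrences in a list of directions. -/
theorem prim_count (i : Fin 4) : Primrec fun l : List (Fin 4) => l.count i := by
  have hp : PrimrecPred fun d : Fin 4 => d = i :=
    ⟨inferInstance, Primrec.dom_finite _⟩
  have hf := Primrec.listFilter hp
  refine (Primrec.list_length.comp hf).of_eq fun l => ?_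
  rw [List.count, List.countP_eq_length_filter]
  congr 1

/-- The rational coordinates of a rational space-time point. -/
def ratProj (i : Fin 4) (x : ℚ × (Fin 3 → ℚ)) : ℚ :=
  if h : i = 0 then x.1 else x.2 (i.pred h)

theorem stProj_rat (i : Fin 4) (t : ℚ) (q : Fin 3 → ℚ) :
    stProj i ((t : ℝ), ratPoint q) = (ratProj i (t, q) : ℝ) := by
  refine Fin.cases ?_ (fun a => ?_) i
  · simp [ratProj]
  · simp [ratProj, Fin.succ_ne_zero, ratPoint]

theorem computable_ratProj (i : Fin 4) : Computable (ratProj i) := by
  by_cases h : i = 0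
  · subst h
    exact Computable.fst
  · have h2 : Computable fun x : ℚ × (Fin 3 → ℚ) => x.2 (i.pred h) :=
      (Computable.fin_app (σ := ℚ) (n := 3)).comp Computable.snd (Computable.const (i.pred h))
    refine h2.of_eq fun x => ?_
    simp [ratProj, h]

/-- The main effectiveness theorem for sums of products. -/
theorem effective_sum_tens {ι : Type*} [Fintype ι] (F : ι → Fin 4 → ℝ → ℝ) (c : ι → Fin 3 → ℚ)
    (hF : ∀ s i, EffFun (F s i)) :
    Effective (fun p j => ∑ s, tens (F s) p * (c s j : ℝ)) := by
  classical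
  have hsm : ∀ s i, ContDiff ℝ ∞ (F s i) := fun s i => (hF s i).smooth
  have hmd := mixedDeriv_sum_tens F (fun s j => (c s j : ℝ)) hsm
  -- approximations
  have hcr : ∀ j : Fin 3, CR (fun x : List (Fin 4) × (ℚ × (Fin 3 → ℚ)) =>
      mixedDeriv x.1 (fun p j => ∑ s, tens (F s) p * (c s j : ℝ)) ((x.2.1 : ℝ), ratPoint x.2.2) j) := by
    intro j
    have h1 : ∀ s, CR (fun x : List (Fin 4) × (ℚ × (Fin 3 → ℚ)) =>
        tens (dtuple x.1 (F s)) ((x.2.1 : ℝ), ratPoint x.2.2) * (c s j : ℝ)) := by
      intro s
      refine CR.mul ?_ (CR.const _)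
      have h2 : ∀ i : Fin 4, CR (fun x : List (Fin 4) × (ℚ × (Fin 3 → ℚ)) =>
          iteratedDeriv (x.1.count i) (F s i) (stProj i ((x.2.1 : ℝ), ratPoint x.2.2))) := by
        intro i
        have hg : Computable fun x : List (Fin 4) × (ℚ × (Fin 3 → ℚ)) =>
            ((x.1.count i, ofRat (ratProj i x.2)) : ℕ × QQ) :=
          ((prim_count i).to_comp.comp Computable.fst).pair
            (computable_ofRat.comp ((computable_ratProj i).comp Computable.snd))
        refine ((hF s i).approx.comp hg).congr fun x => ?_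
        obtain ⟨ds, t, q⟩ := x
        simp only
        rw [stProj_rat, val_ofRat]
      have h3 := CR.prod (Finset.univ : Finset (Fin 4)) (fun i _ => h2 i)
      exact h3
    have h3 := CR.sum (Finset.univ : Finset ι) (fun s _ => h1 s)
    refine h3.congr fun x => ?_
    rw [hmd]
  choose E hE hEspec using hcr
  -- bounds
  choose B hB hBspec using fun s i => (hF s i).bound
  set Cb : ι → ℕ := fun s => ∑ j : Fin 3, qceil (qabs (ofRat (c s j))) with hCb
  have hcb : ∀ s j, |(c s j : ℝ)| ≤ (Cb s : ℝ) := by
    intro s j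
    have h1 : val (qabs (ofRat (c s j))) ≤ qceil (qabs (ofRat (c s j))) := val_le_qceil _
    rw [val_qabs, val_ofRat] at h1
    have h2 : |(c s j : ℝ)| ≤ (qceil (qabs (ofRat (c s j))) : ℝ) := by exact_mod_cast h1
    refine h2.trans ?_
    simp only [hCb]
    push_cast
    exact Finset.single_le_sum (f := fun j => ((qceil (qabs (ofRat (c s j))) : ℕ) : ℝ))
      (fun _ _ => Nat.cast_nonneg _) (Finset.mem_univ j)
  refine ⟨fun x j => val (E j (x.1, x.2.1) x.2.2),
    fun ds => ∑ s, (∏ i, B s i (ds.count i)) * Cb s, ?_, ?_, ?_, ?_⟩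
  · refine computable_fin_fun fun j => ?_
    have hin : Computable fun x : List (Fin 4) × (ℚ × (Fin 3 → ℚ)) × ℕ => (x.1, x.2.1) :=
      Computable.fst.pair (Computable.fst.comp Computable.snd)
    have hn : Computable fun x : List (Fin 4) × (ℚ × (Fin 3 → ℚ)) × ℕ => x.2.2 :=
      Computable.snd.comp Computable.snd
    have h := computable_val.comp ((hE j).comp hin hn)
    exact h
  · refine computable_nat_sum _ fun s => ?_
    refine Primrec.nat_mul.to_comp.comp ?_ (Computable.const _)
    refine computable_nat_prod _ fun i => ?_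
    exact (hB s i).comp (prim_count i).to_comp
  · intro ds t q n j
    exact hEspec j (ds, (t, q)) n
  · intro ds p j
    rw [hmd]
    simp only
    push_cast
    refine (Finset.abs_sum_le_sum_abs _ _).trans (Finset.sum_le_sum fun s _ => ?_)
    rw [abs_mul]
    refine mul_le_mul ?_ (hcb s j) (abs_nonneg _) (by positivity)
    unfold tens
    rw [Finset.abs_prod]
    exact Finset.prod_le_prod (fun _ _ => abs_nonneg _) fun i _ => hBspec s i _ _

end Crest.Agent.Lib.BoxFlow
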